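import Vale.Agent.N091W.Op

/-!
# From the line to the circle
-/

open MeasureTheory Set Real Function Filter Topology
open scoped ENNReal

namespace Vale.Agent.N091W

open Vale.Agent.N091

variable {f : ℝ → ℂ}

theorem loc_of (hp : Periodic f (2 * π)) (hi : IntervalIntegrable f volume 0 (2 * π)) : Loc f := by
  intro a b
  rcases le_total a b with h | h
  · exact (intervalIntegrable_iff_integrableOn_Ioo_of_le h).1
      (hp.intervalIntegrable₀ Real.two_pi_pos.ne' hi a b)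
  · rw [Ioo_eq_empty (not_lt.2 h)]; exact integrableOn_empty

theorem coeff_eq (hp : Periodic f (2 * π)) (k : ℤ) (c : ℝ) : coeff f k =
    (2 * π : ℂ)⁻¹ * ∫ y in Ioo c (c + 2 * π), f y * Complex.exp (-(Complex.I * k * y)) := by
  have h : Periodic (fun y : ℝ => f y * Complex.exp (-(Complex.I * k * y))) (2 * π) := by
    intro y
    simp only [hp y]
    congr 1
    rw [Complex.exp_eq_exp_iff_exists_int]
    exact ⟨-k, by push_cast; ring⟩
  have := h.intervalIntegral_add_eq 0 c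
  rw [zero_add] at this
  rw [coeff, this, intervalIntegral.integral_of_le (by linarith [Real.two_pi_pos]),
    integral_Ioc_eq_integral_Ioo]

theorem S_eq (hp : Periodic f (2 * π)) (hf : Loc f) (N : ℕ) (c x : ℝ) :
    S f N x = ∫ y in Ioo c (c + 2 * π), RK (2 * π) (-N) N (x - y) * f y := by
  have hπ : (π : ℂ) ≠ 0 := by exact_mod_cast Real.pi_ne_zero
  have i : ∀ k : ℤ, IntegrableOn (fun y : ℝ => (2 * π : ℂ)⁻¹ *
      (f y * Complex.exp (-(Complex.I * k * y))) * Complex.exp (Complex.I * k * x))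
      (Ioo c (c + 2 * π)) := by
    intro k
    refine (Integrable.const_mul ((hf _ _).mul_bdd (c := 1) (by fun_prop)
      (Eventually.of_forall fun y => ?_)) _).mul_const _
    rw [show -(Complex.I * k * y) = ((-(k * y) : ℝ) : ℂ) * Complex.I by push_cast; ring,
      Complex.norm_exp_ofReal_mul_I]
  unfold S
  simp_rw [coeff_eq hp _ c, ← integral_const_mul, ← integral_mul_const]
  rw [← integral_finsetSum _ fun k _ => i k]
  refine integral_congr_ae (Eventually.of_forall fun y => ?_)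
  simp only [RK, Finset.mul_sum, Finset.sum_mul]
  refine Finset.sum_congr rfl fun k _ => ?_
  have : Complex.exp (2 * π * Complex.I * k * (x - y : ℝ) / (2 * π : ℝ)) =
      Complex.exp (-(Complex.I * k * y)) * Complex.exp (Complex.I * k * x) := by
    rw [← Complex.exp_add]; congr 1; push_cast; field_simp; ring
  rw [this]; push_cast; ring

theorem exp_low {t : ℝ} (ht : |t| ≤ 4 / 3 * π) : |t| / π ≤ ‖Complex.exp (Complex.I * t) - 1‖ := by
  have hπ := Real.pi_pos
  have h0 := abs_nonneg t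
  rw [Complex.norm_exp_I_mul_ofReal_sub_one, Real.norm_eq_abs, abs_mul, abs_two]
  have e : Real.sin (|t| / 2) ≤ |Real.sin (t / 2)| := by
    rcases abs_cases t with h | h
    · rw [h.1]; exact le_abs_self _
    · rw [h.1, neg_div, Real.sin_neg]; exact neg_le_abs _
  refine le_trans ?_ (mul_le_mul_of_nonneg_left e two_pos.le)
  rcases le_total |t| π with h | h
  · have := Real.mul_le_sin (x := |t| / 2) (by positivity) (by linarith)
    have e2 : 2 / π * (|t| / 2) = |t| / π := by field_simp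
    have : 0 ≤ |t| / π := by positivity
    linarith
  · have := Real.mul_le_sin (x := π - |t| / 2) (by linarith) (by linarith)
    rw [Real.sin_pi_sub] at this
    have e2 : 2 / π * (π - |t| / 2) = 2 - |t| / π := by field_simp
    have e3 : |t| / π ≤ 4 / 3 := by rwa [div_le_iff₀ hπ]
    linarith

theorem exp_two (t : ℝ) : ‖Complex.exp (Complex.I * t) - 1 - Complex.I * t‖ ≤ 3 * |t| ^ 2 := by
  have hn : ‖Complex.I * t‖ = |t| := by simp
  rcases le_total |t| 1 with h | h
  · have := Complex.norm_exp_sub_one_sub_id_le (x := Complex.I * t) (by rwa [hn])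
    rw [hn] at this
    nlinarith [sq_nonneg |t|]
  · have h1 : ‖Complex.exp (Complex.I * t)‖ = 1 := by
      rw [mul_comm, Complex.norm_exp_ofReal_mul_I]
    have h2 := (norm_sub_le (Complex.exp (Complex.I * t) - 1) (Complex.I * t)).trans
      (add_le_add_left (norm_sub_le _ _) _)
    rw [h1, hn, norm_one] at h2
    nlinarith

theorem ker_diff (N : ℕ) {t : ℝ} (h0 : t ≠ 0) (ht : |t| ≤ 4 / 3 * π) :
    ‖RK (2 * π) (-N) N t -
      LK (((-N : ℤ) : ℝ) / (2 * π)) ((((N : ℤ) + 1 : ℤ) : ℝ) / (2 * π)) t‖ ≤ 3 := by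
  have hπ := Real.pi_pos
  have hπ' : (π : ℂ) ≠ 0 := by exact_mod_cast hπ.ne'
  have ht' : (t : ℂ) ≠ 0 := by exact_mod_cast h0
  have ha : 0 < |t| := abs_pos.2 h0
  have h1 := RK_mul Real.two_pi_pos (M := -N) (N := N) (by omega) t
  have h2 := LK_mul (((-N : ℤ) : ℝ) / (2 * π)) ((((N : ℤ) + 1 : ℤ) : ℝ) / (2 * π)) t
  have e : 2 * π * Complex.I * t * ((1 / (2 * π) : ℝ) : ℂ) = Complex.I * t := by
    push_cast; field_simp
  rw [e] at h1
  have l := exp_low ht
  have hE : Complex.exp (Complex.I * t) - 1 ≠ 0 := norm_pos_iff.1 (lt_of_lt_of_le (by positivity) l)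
  set X := Complex.exp (2 * π * Complex.I * t * (((((N : ℤ) + 1 : ℤ) : ℝ) / (2 * π) : ℝ) : ℂ)) -
    Complex.exp (2 * π * Complex.I * t * ((((-N : ℤ) : ℝ) / (2 * π) : ℝ) : ℂ)) with hX
  have nX : ‖X‖ ≤ 2 := by
    refine (norm_sub_le _ _).trans ?_
    rw [norm_ex, norm_ex]; norm_num
  have k1 := (eq_mul_inv_iff_mul_eq₀ (mul_ne_zero (by exact_mod_cast Real.two_pi_pos.ne') hE)).2 h1
  have k2 := (eq_mul_inv_iff_mul_eq₀ (mul_ne_zero Complex.two_pi_I_ne_zero ht')).2 h2
  have k3 : X * (((2 * π : ℝ) : ℂ) * (Complex.exp (Complex.I * t) - 1))⁻¹ -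
      X * (2 * π * Complex.I * t)⁻¹ = -(X * ((Complex.exp (Complex.I * t) - 1 - Complex.I * t) /
        (2 * π * Complex.I * t * (Complex.exp (Complex.I * t) - 1)))) := by
    push_cast; field_simp; ring
  rw [k1, k2, k3, norm_neg, norm_mul, norm_div, norm_mul]
  have n1 : ‖2 * π * Complex.I * t‖ = 2 * π * |t| := by simp [abs_of_pos hπ]
  rw [n1]
  calc _ ≤ 2 * (3 * |t| ^ 2 / (2 * π * |t| * (|t| / π))) := by gcongr; exact exp_two t
    _ = 3 := by field_simp

theorem Smax_le (hp : Periodic f (2 * π)) (hf : Loc f) {R : ℝ × ℝ} (hR : R.2 = R.1 + 2 * π / 3)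
    {x : ℝ} (hx : x ∈ Ioo R.1 R.2) : Smax f x ≤ TL (cut f R) x + 36 * L f R := by
  have hπ := Real.pi_pos
  have ht : tri R = Ioo (R.1 - 2 * π / 3) (R.1 - 2 * π / 3 + 2 * π) := by
    rw [tri, hR]; congr 1 <;> ring
  refine iSup_le fun N => ?_
  set a : ℝ := ((-N : ℤ) : ℝ) / (2 * π)
  set b : ℝ := (((N : ℤ) + 1 : ℤ) : ℝ) / (2 * π)
  have e1 : LS a b (cut f R) x = ∫ y in tri R, LK a b (x - y) * f y := by
    rw [LS_kernel (hf.cut R), ← integral_indicator (s := tri R) measurableSet_Ioo]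
    refine integral_congr_ae (Eventually.of_forall fun y => ?_)
    by_cases hy : y ∈ tri R <;> simp [cut, hy]
  have i0 : IntegrableOn f (tri R) := hf _ _
  have i1 : IntegrableOn (fun y => LK a b (x - y) * f y) (tri R) :=
    i0.bdd_mul (c := |b - a|) ((LK_cont a b).comp (by fun_prop)).aestronglyMeasurable
      (Eventually.of_forall fun y => LK_le a b _)
  have i2 : IntegrableOn (fun y => RK (2 * π) (-N) N (x - y) * f y) (tri R) :=
    i0.bdd_mul (Continuous.aestronglyMeasurable (by unfold RK; fun_prop))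
      (Eventually.of_forall fun y => RK_le Real.two_pi_pos _ _ _)
  have e2 : S f N x = LS a b (cut f R) x +
      ∫ y in tri R, (RK (2 * π) (-N) N (x - y) * f y - LK a b (x - y) * f y) := by
    rw [integral_sub i2 i1, e1, add_sub_cancel, S_eq hp hf N (R.1 - 2 * π / 3), ht]
  rw [e2]
  refine (enorm_add_le _ _).trans (add_le_add (le_TL _ _ _ _) ?_)
  refine (enorm_integral_le_lintegral_enorm _).trans ?_
  calc _ ≤ ∫⁻ y in tri R, 3 * ‖f y‖ₑ := by
        refine setLIntegral_mono_ae' measurableSet_Ioo ?_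
        filter_upwards [compl_mem_ae_iff.2 (Real.volume_singleton (a := x))] with y hy h
        rw [← sub_mul, enorm_mul, ← ofReal_norm, ← ENNReal.ofReal_ofNat 3]
        refine mul_le_mul_left (ENNReal.ofReal_le_ofReal (ker_diff N
          (sub_ne_zero.2 (Ne.symm hy)) (abs_le.2 ⟨?_, ?_⟩))) _ <;>
        linarith [h.1, h.2, hx.1, hx.2]
    _ ≤ 3 * (ENNReal.ofReal (9 / 2 * (R.2 - R.1)) * L f R) := by
        rw [lintegral_const_mul' _ _ (by simp)]
        exact mul_le_mul_right (int_le_L (hx.1.trans hx.2)) _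
    _ ≤ _ := by
        rw [← mul_assoc, ← ENNReal.ofReal_ofNat 3, ← ENNReal.ofReal_mul (by norm_num),
          ← ENNReal.ofReal_ofNat 36]
        exact mul_le_mul_left (ENNReal.ofReal_le_ofReal (by linarith [Real.pi_lt_four])) _

/-- the three root intervals -/
noncomputable def rt (i : Fin 3) : ℝ × ℝ := (2 * π / 3 * i, 2 * π / 3 * i + 2 * π / 3)

/-- the class of functions -/
def Per (f : ℝ → ℂ) : Prop := Periodic f (2 * π) ∧ IntervalIntegrable f volume 0 (2 * π)

theorem circ_tree {C : ℝ} (hT : Op TL C) : ∃ K : ℝ, 1 ≤ K ∧ ∀ f, Per f → ∀ i,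
    ∃ U, Tree (Smax f) (ENNReal.ofReal K) f (rt i) U := by
  obtain ⟨K, hK, h⟩ := tree hT
  refine ⟨K + 36, by linarith, fun f hf i => ?_⟩
  have hl := loc_of hf.1 hf.2
  have hR : (rt i).1 < (rt i).2 := by simp [rt, Real.pi_pos]
  obtain ⟨U, hU⟩ := h f hl (rt i) hR
  refine ⟨U, hU.lt, hU.zero, hU.opn, hU.anti, hU.half, fun n x Q hQ hx => ?_⟩
  have h0 := hQ 0 (Nat.zero_le _)
  have hx0 : x ∈ Ioo (rt i).1 (rt i).2 := hU.zero ▸ h0.1.2.1 h0.2
  have e : Q 0 = rt i := IsComp.eq h0.1 (hU.zero ▸ comp_self hR) h0.2 hx0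
  rw [ENNReal.ofReal_add hK.le (by norm_num), add_mul, ENNReal.ofReal_ofNat]
  refine (Smax_le hf.1 hl rfl hx0).trans (add_le_add (hU.dom n x Q hQ hx) (mul_le_mul_right ?_ _))
  rw [← e]
  exact Finset.single_le_sum (f := fun k => L f (Q k)) (fun _ _ => zero_le)
    (Finset.mem_range.2 (Nat.succ_pos n))

theorem rt_sub (i : Fin 3) : Ioo (rt i).1 (rt i).2 ⊆ Ioo 0 (2 * π) := by
  have hπ := Real.pi_pos
  have h0 : (0 : ℝ) ≤ (i : ℕ) := Nat.cast_nonneg _
  have h2 : ((i : ℕ) : ℝ) ≤ 2 := by exact_mod_cast Nat.lt_succ_iff.1 i.2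
  exact Ioo_subset_Ioo (by simp only [rt]; positivity) (by simp only [rt]; nlinarith)

theorem rt_disj : Pairwise (Function.onFun Disjoint fun i => Ioo (rt i).1 (rt i).2) := by
  have hπ := Real.pi_pos
  have key : ∀ i j : Fin 3, i < j → Disjoint (Ioo (rt i).1 (rt i).2) (Ioo (rt j).1 (rt j).2) := by
    intro i j hij
    have : ((i : ℕ) : ℝ) + 1 ≤ (j : ℕ) := by exact_mod_cast hij
    refine disjoint_left.2 fun x h1 h2 => ?_
    simp only [rt, mem_Ioo] at h1 h2
    nlinarith [h1.2, h2.1]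
  intro i j hne
  rcases lt_or_gt_of_ne hne with h | h
  · exact key i j h
  · exact (key j i h).symm

theorem ae_rt : ∀ᵐ x : ℝ, x ∈ Ioo 0 (2 * π) → ∃ i, x ∈ Ioo (rt i).1 (rt i).2 := by
  filter_upwards [compl_mem_ae_iff.2 (Real.volume_singleton (a := 2 * π / 3)),
    compl_mem_ae_iff.2 (Real.volume_singleton (a := 4 * π / 3))] with x h1 h2 hx
  rcases lt_or_gt_of_ne (show x ≠ _ from h1) with a | a
  · exact ⟨0, by simpa [rt] using ⟨hx.1, a⟩⟩
  rcases lt_or_gt_of_ne (show x ≠ _ from h2) with b | b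
  · exact ⟨1, by simp only [rt, mem_Ioo]; norm_num; constructor <;> linarith⟩
  · exact ⟨2, by simp only [rt, mem_Ioo]; norm_num; constructor <;> linarith [hx.2]⟩

/-- gluing the three roots -/
theorem glue (P : ℝ → Prop) (F : ℝ → ℝ≥0∞) {X : ℝ≥0∞}
    (h : ∀ i, ∫⁻ x in {x | x ∈ Ioo (rt i).1 (rt i).2 ∧ P x}, F x ≤ X) :
    ∫⁻ x in {x | x ∈ Ioo 0 (2 * π) ∧ P x}, F x ≤ 3 * X := by
  refine le_trans (lintegral_mono_set' (t := ⋃ i, {x | x ∈ Ioo (rt i).1 (rt i).2 ∧ P x}) ?_)
    ((lintegral_iUnion_le _ _).trans ((ENNReal.tsum_le_tsum h).trans (by simp)))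
  filter_upwards [ae_rt] with x hx h1
  obtain ⟨i, hi⟩ := hx h1.1
  exact mem_iUnion.2 ⟨i, hi, h1.2⟩

theorem tri_rt (i : Fin 3) {F : ℝ → ℝ≥0∞} (hF : Periodic F (2 * π)) :
    ∫⁻ x in tri (rt i), F x = ∫⁻ x in Ioo 0 (2 * π), F x := by
  rw [← lint_periodic Real.two_pi_pos hF (2 * (rt i).1 - (rt i).2), tri]
  congr 3
  simp only [rt]; ring

theorem Smax_meas (f : ℝ → ℂ) : Measurable (Smax f) :=
  Measurable.iSup fun N => Measurable.enorm (Continuous.measurable (by unfold S; fun_prop))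

end Vale.Agent.N091W
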