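import Vale.Agent.N091W.Defs

/-!
# Covering lemma and components of open subsets of the line
-/

open MeasureTheory Set Real Function
open scoped ENNReal

namespace Vale.Agent.N091W

/-- Vitali covering with two weights -/
theorem cover {ι : Type*} (t : Set ι) (c d : ι → ℝ) (E : ι → Set ℝ) (ν : Measure ℝ)
    (h v : ℝ → ℝ≥0∞) (ψ : ℝ≥0∞) (hψ : ψ ≠ ∞) (W : Set ℝ) (R : ℝ)
    (hcd : ∀ i ∈ t, c i < d i) (hR : ∀ i ∈ t, d i - c i ≤ R) (hW : ∀ i ∈ t, Ioo (c i) (d i) ⊆ W)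
    (hh : ∀ i ∈ t, ENNReal.ofReal (d i - c i) ≤ ∫⁻ x in Ioo (c i) (d i), h x)
    (H : ∀ a b y : ℝ, y ∈ Ioo a b → ν (⋃ i ∈ {i ∈ t | Ioo (c i) (d i) ⊆ Ioo a b}, E i) ≤
      ψ * ENNReal.ofReal (b - a) * v y) :
    ν (⋃ i ∈ t, E i) ≤ 5 * ψ * ∫⁻ x in W, h x * v x := by
  obtain ⟨u, hut, hdis, hu⟩ := Vitali.exists_disjoint_subfamily_covering_enlargement
    (fun i => Ioo (c i) (d i)) t (fun i => d i - c i) 2 one_lt_two
    (fun i hi => (sub_pos.2 (hcd i hi)).le) R hR (fun i hi => nonempty_Ioo.2 (hcd i hi))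
  have hc : u.Countable := hdis.countable_of_isOpen (fun i _ => isOpen_Ioo)
    fun i hi => nonempty_Ioo.2 (hcd i (hut hi))
  set P : ι → Set ℝ := fun j => ⋃ i ∈ {i ∈ t | Ioo (c i) (d i) ⊆
    Ioo (c j - 2 * (d j - c j)) (d j + 2 * (d j - c j))}, E i with hP
  have h1 : (⋃ i ∈ t, E i) ⊆ ⋃ j ∈ u, P j := by
    intro x hx
    obtain ⟨i, hi, hx⟩ := mem_iUnion₂.1 hx
    obtain ⟨j, hj, ⟨z, hz1, hz2⟩, hl⟩ := hu i hi
    refine mem_iUnion₂.2 ⟨j, hj, mem_iUnion₂.2 ⟨i, ⟨hi, fun y hy => ?_⟩, hx⟩⟩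
    constructor <;> linarith [hz1.1, hz1.2, hz2.1, hz2.2, hy.1, hy.2]
  have h2 : ∀ j ∈ u, ν (P j) ≤ 5 * ψ * ∫⁻ x in Ioo (c j) (d j), h x * v x := by
    intro j hj
    have hl : 0 < d j - c j := sub_pos.2 (hcd j (hut hj))
    have hl0 : ENNReal.ofReal (d j - c j) ≠ 0 := by simpa using hcd j (hut hj)
    refine (ENNReal.mul_le_mul_iff_right hl0 ENNReal.ofReal_ne_top).1 ?_
    calc ENNReal.ofReal (d j - c j) * ν (P j)
        ≤ (∫⁻ x in Ioo (c j) (d j), h x) * ν (P j) := by gcongr; exact hh j (hut hj)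
      _ ≤ ∫⁻ x in Ioo (c j) (d j), h x * ν (P j) := lintegral_mul_const_le _ _
      _ ≤ ∫⁻ x in Ioo (c j) (d j), (ENNReal.ofReal (d j - c j) * (5 * ψ)) * (h x * v x) := by
          refine setLIntegral_mono' measurableSet_Ioo fun x hx => ?_
          have := H (c j - 2 * (d j - c j)) (d j + 2 * (d j - c j)) x
            ⟨by linarith [hx.1], by linarith [hx.2]⟩
          have e : ENNReal.ofReal (d j + 2 * (d j - c j) - (c j - 2 * (d j - c j))) =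
              5 * ENNReal.ofReal (d j - c j) := by
            rw [show d j + 2 * (d j - c j) - (c j - 2 * (d j - c j)) = 5 * (d j - c j) by ring,
              ENNReal.ofReal_mul (by norm_num)]
            simp
          rw [e] at this
          calc h x * ν (P j) ≤ h x * (ψ * (5 * ENNReal.ofReal (d j - c j)) * v x) := by gcongr
            _ = _ := by ring
      _ = _ := by
          rw [lintegral_const_mul' _ _ (ENNReal.mul_ne_top ENNReal.ofReal_ne_top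
            (ENNReal.mul_ne_top (by simp) hψ)), mul_assoc]
  calc ν (⋃ i ∈ t, E i) ≤ ν (⋃ j ∈ u, P j) := measure_mono h1
    _ ≤ ∑' j : u, ν (P j) := measure_biUnion_le ν hc P
    _ ≤ ∑' j : u, 5 * ψ * ∫⁻ x in Ioo (c j) (d j), h x * v x :=
        ENNReal.tsum_le_tsum fun j => h2 j j.2
    _ = 5 * ψ * ∫⁻ x in ⋃ j ∈ u, Ioo (c j) (d j), h x * v x := by
        rw [ENNReal.tsum_mul_left, lintegral_biUnion hc (fun _ _ => measurableSet_Ioo) hdis]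
    _ ≤ _ := by
        gcongr
        exact iUnion₂_subset fun j hj => hW j (hut hj)

/-- summing an estimate over disjoint intervals -/
theorem sum_disj {ι : Type*} (t : Set ι) (c d : ι → ℝ) (E : ι → Set ℝ) (ν μ : Measure ℝ)
    (θ : ℝ≥0∞) (hcd : ∀ i ∈ t, c i < d i) (hdis : t.PairwiseDisjoint fun i => Ioo (c i) (d i))
    (H : ∀ i ∈ t, ν (E i) ≤ θ * μ (Ioo (c i) (d i))) :
    ν (⋃ i ∈ t, E i) ≤ θ * μ (⋃ i ∈ t, Ioo (c i) (d i)) := by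
  have hc : t.Countable := hdis.countable_of_isOpen (fun i _ => isOpen_Ioo)
    fun i hi => nonempty_Ioo.2 (hcd i hi)
  rw [measure_biUnion hc hdis fun _ _ => measurableSet_Ioo, ← ENNReal.tsum_mul_left]
  exact (measure_biUnion_le ν hc E).trans (ENNReal.tsum_le_tsum fun j => H j j.2)

/-- `(c, d)` is a component of `U` -/
def IsComp (U : Set ℝ) (p : ℝ × ℝ) : Prop := p.1 < p.2 ∧ Ioo p.1 p.2 ⊆ U ∧ p.1 ∉ U ∧ p.2 ∉ U

theorem sub_of_meet {U : Set ℝ} {p : ℝ × ℝ} {c d x : ℝ} (h1 : p.1 ∉ U) (h2 : p.2 ∉ U)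
    (hs : Ioo c d ⊆ U) (hx : x ∈ Ioo c d) (hp : x ∈ Ioo p.1 p.2) : p.1 ≤ c ∧ d ≤ p.2 := by
  constructor
  · by_contra h
    exact h1 (hs ⟨not_le.1 h, hp.1.trans hx.2⟩)
  · by_contra h
    exact h2 (hs ⟨hx.1.trans hp.2, not_le.1 h⟩)

theorem IsComp.eq {U : Set ℝ} {p q : ℝ × ℝ} (hp : IsComp U p) (hq : IsComp U q) {x : ℝ}
    (h1 : x ∈ Ioo p.1 p.2) (h2 : x ∈ Ioo q.1 q.2) : p = q := by
  have a := sub_of_meet hp.2.2.1 hp.2.2.2 hq.2.1 h2 h1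
  have b := sub_of_meet hq.2.2.1 hq.2.2.2 hp.2.1 h1 h2
  exact Prod.ext (le_antisymm a.1 b.1) (le_antisymm b.2 a.2)

theorem exists_comp {U : Set ℝ} (hU : IsOpen U) {a b x : ℝ} (hab : U ⊆ Ioo a b) (hx : x ∈ U) :
    ∃ p, IsComp U p ∧ x ∈ Ioo p.1 p.2 := by
  have ha : a ∉ U := fun h => lt_irrefl _ (hab h).1
  have hb : b ∉ U := fun h => lt_irrefl _ (hab h).2
  have c1 : IsClosed (Uᶜ ∩ Iic x) := hU.isClosed_compl.inter isClosed_Iic
  have c2 : IsClosed (Uᶜ ∩ Ici x) := hU.isClosed_compl.inter isClosed_Ici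
  have b1 : BddAbove (Uᶜ ∩ Iic x) := ⟨x, fun y hy => hy.2⟩
  have b2 : BddBelow (Uᶜ ∩ Ici x) := ⟨x, fun y hy => hy.2⟩
  have m1 := c1.csSup_mem ⟨a, ha, (hab hx).1.le⟩ b1
  have m2 := c2.csInf_mem ⟨b, hb, (hab hx).2.le⟩ b2
  have l1 : sSup (Uᶜ ∩ Iic x) < x := lt_of_le_of_ne m1.2 fun h => m1.1 (by rw [h]; exact hx)
  have l2 : x < sInf (Uᶜ ∩ Ici x) := lt_of_le_of_ne m2.2 fun h => m2.1 (by rw [← h]; exact hx)
  refine ⟨(sSup (Uᶜ ∩ Iic x), sInf (Uᶜ ∩ Ici x)), ⟨l1.trans l2, fun y hy => ?_, m1.1, m2.1⟩, l1, l2⟩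
  by_contra hy'
  rcases le_total y x with h | h
  · exact absurd (le_csSup b1 ⟨hy', h⟩) (not_le.2 hy.1)
  · exact absurd (csInf_le b2 ⟨hy', h⟩) (not_le.2 hy.2)

theorem comp_disj (U : Set ℝ) (t : Set (ℝ × ℝ)) (ht : ∀ p ∈ t, IsComp U p) :
    t.PairwiseDisjoint fun p => Ioo p.1 p.2 := fun p hp q hq hne =>
  disjoint_left.2 fun _ h1 h2 => hne ((ht p hp).eq (ht q hq) h1 h2)

/-- an estimate on each component of `U` passes to an interval whose ends are not in `U` -/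
theorem comp_sum {U V : Set ℝ} (hU : IsOpen U) {a b : ℝ} (hab : U ⊆ Ioo a b) (hV : V ⊆ U)
    (ν : Measure ℝ) (θ : ℝ≥0∞)
    (H : ∀ p, IsComp U p → ν (V ∩ Ioo p.1 p.2) ≤ θ * ν (Ioo p.1 p.2)) {q : ℝ × ℝ}
    (h1 : q.1 ∉ U) (h2 : q.2 ∉ U) : ν (V ∩ Ioo q.1 q.2) ≤ θ * ν (U ∩ Ioo q.1 q.2) := by
  have := sum_disj {p : ℝ × ℝ | IsComp U p ∧ Ioo p.1 p.2 ⊆ Ioo q.1 q.2} Prod.fst Prod.snd
    (fun p => V ∩ Ioo p.1 p.2) ν ν θ (fun p hp => hp.1.1) (comp_disj U _ fun p hp => hp.1)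
    fun p hp => H p hp.1
  refine (measure_mono fun x hx => ?_).trans (this.trans ?_)
  · obtain ⟨p, hp, hxp⟩ := exists_comp hU hab (hV hx.1)
    have := sub_of_meet h1 h2 hp.2.1 hxp hx.2
    exact mem_iUnion₂.2 ⟨p, ⟨hp, Ioo_subset_Ioo this.1 this.2⟩, hx.1, hxp⟩
  · gcongr
    exact iUnion₂_subset fun p hp => subset_inter hp.1.2.1 hp.2

end Vale.Agent.N091W
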