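import Mathlib

/-!
# P091: Fourier series of `2π`-periodic functions, Orlicz averages and maximal functions
-/

open MeasureTheory Set Real
open scoped ENNReal

namespace Vale.Agent.N091W

/-- The Fourier coefficient `f^(k) = (2π)⁻¹ ∫₀^{2π} f(x) e^{-ikx} dx`. -/
noncomputable def coeff (f : ℝ → ℂ) (k : ℤ) : ℂ :=
  (2 * π : ℂ)⁻¹ * ∫ x in (0 : ℝ)..2 * π, f x * Complex.exp (-(Complex.I * k * x))

/-- The symmetric partial sum `S_N f (x) = ∑_{|k| ≤ N} f^(k) e^{ikx}`. -/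
noncomputable def S (f : ℝ → ℂ) (N : ℕ) (x : ℝ) : ℂ :=
  ∑ k ∈ Finset.Icc (-(N : ℤ)) N, coeff f k * Complex.exp (Complex.I * k * x)

/-- The Carleson maximal function `S^* f = sup_N |S_N f|`. -/
noncomputable def Smax (f : ℝ → ℂ) (x : ℝ) : ℝ≥0∞ := ⨆ N : ℕ, ‖S f N x‖ₑ

/-- The Young function `t (log (2 + t))^γ`. -/
noncomputable def Phi (γ t : ℝ) : ℝ≥0∞ := ENNReal.ofReal (t * Real.log (2 + t) ^ γ)

/-- The Luxemburg average of `g ≥ 0` over `(a, b)` in `L (log L)^γ`: the infimum of the `c > 0`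
such that the mean of `Phi γ (g / c)` over `(a, b)` is at most `1`. -/
noncomputable def lux (γ : ℝ) (g : ℝ → ℝ) (a b : ℝ) : ℝ≥0∞ :=
  ⨅ (c : ℝ) (_ : 0 < c) (_ : ∫⁻ x in Ioo a b, Phi γ (g x / c) ≤ ENNReal.ofReal (b - a)),
    ENNReal.ofReal c

/-- The maximal function `M_{L (log L)^γ}`; for `γ = 0` the Hardy-Littlewood maximal function. -/
noncomputable def Mlog (γ : ℝ) (g : ℝ → ℝ) (x : ℝ) : ℝ≥0∞ :=
  ⨆ (a : ℝ) (b : ℝ) (_ : a < x) (_ : x < b), lux γ g a b

/-- Muckenhoupt's condition `A_∞` with parameters `α`, `β`: a measurable part of an interval of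
relative length at most `α` has relative weight at most `β`. -/
def Ainf (α β : ℝ) (w : ℝ → ℝ) : Prop :=
  ∀ (a b : ℝ) (E : Set ℝ), a < b → MeasurableSet E → E ⊆ Ioo a b →
    volume E ≤ ENNReal.ofReal (α * (b - a)) →
    ∫⁻ x in E, ENNReal.ofReal (w x) ≤ ENNReal.ofReal β * ∫⁻ x in Ioo a b, ENNReal.ofReal (w x)

/-- The arcs `(a i, b i)`, of length at most `2π`, form a sparse family on the circle: they contain
pairwise disjoint measurable subsets of the period `(0, 2π)` of relative length at least `1 / 6`. -/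
def Sparse {ι : Type} (a b : ι → ℝ) : Prop :=
  ∃ E : ι → Set ℝ, Pairwise (Function.onFun Disjoint E) ∧ ∀ i, a i < b i ∧ b i - a i ≤ 2 * π ∧
    MeasurableSet (E i) ∧ E i ⊆ Ioo (a i) (b i) ∧ E i ⊆ Ioo 0 (2 * π) ∧
    ENNReal.ofReal ((b i - a i) / 6) ≤ volume (E i)

end Vale.Agent.N091W
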