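import Vale.Agent.N091W.Circ
import Vale.Agent.P091.H74.Final

/-!
# P091: assembly
-/

open MeasureTheory Set Real Function Filter Topology AddCircle
open scoped ENNReal

namespace Vale.Agent.N091W

open Vale.Agent.N091

variable {f : ℝ → ℂ}

theorem trees : ∃ K : ℝ, 1 ≤ K ∧ ∀ f, Per f → ∀ i,
    ∃ U, Tree (Smax f) (ENNReal.ofReal K) f (rt i) U := by
  obtain ⟨C, hC, h⟩ := maxC_all fun T _ =>
    Vale.Agent.P091.H253.PAw_of_PGRID Vale.Agent.P091.CH.H69.pHL1 Vale.Agent.P091.H74.pgrid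
  exact circ_tree (op_TL hC fun T _ => h ℂ T)

theorem lift_ex {T : ℝ} [hT : Fact (0 < T)] (hp : Periodic f T)
    (hm : AEStronglyMeasurable f volume)
    (i0 : IntegrableOn (fun x => ‖f x‖ * Real.log (2 + ‖f x‖)) (Ioc 0 (0 + T))) :
    ∃ F : AddCircle T → ℂ, (∀ x : ℝ, F x = f x) ∧ AEStronglyMeasurable F haarAddCircle ∧
      Integrable (fun z => ‖F z‖ * Real.log (2 + ‖F z‖)) haarAddCircle := by
  have hT0 := hT.out
  have mp : MeasurePreserving (fun z : AddCircle T => ((equivIoc T 0 z : Ioc 0 (0 + T)) : ℝ))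
      volume (volume.restrict (Ioc 0 (0 + T))) :=
    (measurePreserving_subtype_coe measurableSet_Ioc).comp (AddCircle.measurePreserving_equivIoc T)
  have hne : ENNReal.ofReal T ≠ 0 := by simpa using hT0
  have i1 := mp.integrable_comp_of_integrable i0
  have m1 := hm.restrict.comp_measurePreserving mp
  rw [volume_eq_smul_haarAddCircle] at i1 m1
  refine ⟨fun z => f (equivIoc T 0 z), fun x => ?_,
    m1.mono_ac (Measure.absolutelyContinuous_smul hne),
    (integrable_smul_measure hne ENNReal.ofReal_ne_top).1 i1⟩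
  exact hp.sub_zsmul_eq (toIocDiv hT0 0 x)

theorem ae_lift {T : ℝ} [hT : Fact (0 < T)] {P : AddCircle T → Prop}
    (h : ∀ᵐ z ∂haarAddCircle, P z) : ∀ᵐ x : ℝ, P x := by
  have key2 := Measure.ae_smul_measure h (ENNReal.ofReal T)
  rw [← volume_eq_smul_haarAddCircle] at key2
  rw [← Measure.restrict_univ (μ := (volume : Measure ℝ)), ← iUnion_Ioc_add_zsmul hT.out 0,
    ae_restrict_iUnion_iff]
  intro n
  have := (AddCircle.measurePreserving_mk T (0 + n • T)).quasiMeasurePreserving.ae key2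
  rwa [add_zsmul, one_zsmul, ← add_assoc]

theorem q1 (hp : Periodic f (2 * π)) (hm : AEStronglyMeasurable f volume)
    (hi : ∫⁻ x in Ioo 0 (2 * π), Phi 1 ‖f x‖ < ∞) :
    ∀ᵐ x : ℝ, Tendsto (fun N => S f N x) atTop (𝓝 (f x)) := by
  have : Fact (0 < 2 * π) := ⟨Real.two_pi_pos⟩
  have i0 : IntegrableOn (fun x => ‖f x‖ * Real.log (2 + ‖f x‖)) (Ioc 0 (0 + 2 * π)) := by
    refine ⟨(hm.norm.mul ((aemeasurable_const.add
      hm.norm.aemeasurable).log.aestronglyMeasurable)).restrict, ?_⟩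
    rw [hasFiniteIntegral_iff_ofReal (Eventually.of_forall fun x =>
      mul_nonneg (norm_nonneg _) (by linarith [log_ge (norm_nonneg (f x))])), zero_add,
      ← setLIntegral_congr Ioo_ae_eq_Ioc]
    simpa only [Phi_one] using hi
  obtain ⟨F, hFx, m1, i1⟩ := lift_ex hp hm i0
  have key := ae_lift
    ((Vale.Agent.P091.H34.final_of Vale.Agent.P091.H74.pgrid (2 * π)).1 F m1 i1)
  have hπ : (π : ℂ) ≠ 0 := by exact_mod_cast Real.pi_ne_zero
  have hc : ∀ k : ℤ, fourierCoeff F k = coeff f k := by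
    intro k
    rw [fourierCoeff_eq_intervalIntegral F k 0, zero_add, coeff, Complex.real_smul]
    congr 1
    · push_cast; rw [one_div]
    · refine intervalIntegral.integral_congr fun x _ => ?_
      simp only [hFx, fourier_coe_apply, smul_eq_mul]
      rw [mul_comm]
      congr 2; push_cast; field_simp
  have hS : ∀ (N : ℕ) (x : ℝ), ∑ k ∈ Finset.Icc (-(N : ℤ)) (N : ℤ),
      fourierCoeff F k * fourier k (x : AddCircle (2 * π)) = S f N x := by
    intro N x
    refine Finset.sum_congr rfl fun k _ => ?_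
    rw [hc, fourier_coe_apply]
    congr 2; push_cast; field_simp
  filter_upwards [key] with x hx
  simpa only [hS, hFx] using hx

theorem sparse_all : ∃ C : ℝ, ∀ f, Per f → ∃ (ι : Type) (a b : ι → ℝ), Sparse a b ∧
    ∀ᵐ x, x ∈ Ioo 0 (2 * π) → Smax f x ≤ ENNReal.ofReal C *
      ∑' i, (Ioo (a i) (b i)).indicator (fun _ => lux 1 (fun y => ‖f y‖) (a i) (b i)) x := by
  obtain ⟨K, -, h⟩ := trees
  refine ⟨K, fun f hf => ?_⟩
  choose U hU using h f hf
  choose ι a b E h1 h2 h3 using fun i => (hU i).sparse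
  refine ⟨Σ r, ι r, fun i => a i.1 i.2, fun i => b i.1 i.2, ⟨fun i => E i.1 i.2, ?_,
    fun i => ?_⟩, ?_⟩
  · rintro ⟨r, i⟩ ⟨s, j⟩ hne
    rcases eq_or_ne r s with rfl | hrs
    · exact h1 r fun e : i = j => hne (by rw [e])
    · exact (rt_disj hrs).mono (h2 r i).1 (h2 s j).1
  · obtain ⟨h4, h5, h6, h7, h8, h9⟩ := h2 i.1 i.2
    refine ⟨h5, h6.trans (le_of_eq ?_), h7, h8, h4.trans (rt_sub _), h9⟩
    simp only [rt]; ring
  · filter_upwards [ae_rt, ae_all_iff.2 h3] with x hx h4 h0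
    obtain ⟨r, hr⟩ := hx h0
    refine (h4 r hr).trans (mul_le_mul_right ?_ _)
    rw [ENNReal.tsum_sigma']
    exact ENNReal.le_tsum (f := fun r => ∑' i : ι r, (Ioo (a r i) (b r i)).indicator
      (fun _ => lux 1 (fun y => ‖f y‖) (a r i) (b r i)) x) r

theorem expo_all : ∃ C c : ℝ, 0 < c ∧ ∀ f, Per f → ∀ t : ℝ, 0 ≤ t →
    volume {x | x ∈ Ioo 0 (2 * π) ∧ ENNReal.ofReal t * Mlog 1 (fun y => ‖f y‖) x < Smax f x} ≤
      ENNReal.ofReal (C * Real.exp (-(c * t))) := by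
  obtain ⟨K, hK, h⟩ := trees
  have := log2_gt
  refine ⟨4 * π, Real.log 2 / K, by positivity, fun f hf t ht => ?_⟩
  rw [← setLIntegral_one]
  refine (glue _ _ (X := ENNReal.ofReal (2 * Real.exp (-(Real.log 2 / K * t)) * (2 * π / 3)))
    fun i => ?_).trans (le_of_eq ?_)
  · obtain ⟨U, hU⟩ := h f hf i
    rw [setLIntegral_one]
    simpa [rt] using hU.expo (by linarith) ht
  · rw [← ENNReal.ofReal_ofNat 3, ← ENNReal.ofReal_mul (by norm_num)]
    congr 1; ring

theorem per_int (hf : Per f) {w : ℝ → ℝ} (hw : Periodic w (2 * π)) (γ lam : ℝ) :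
    Periodic (fun x => Phi 1 (‖f x‖ / lam) * Mlog γ w x) (2 * π) := fun x => by
  simp only [hf.1 x, Mlog_periodic hw γ x]

theorem three (C : ℝ) (X : ℝ≥0∞) : 3 * (ENNReal.ofReal C * X) = ENNReal.ofReal (3 * C) * X := by
  rw [ENNReal.ofReal_mul (by norm_num), ENNReal.ofReal_ofNat, mul_assoc]

theorem any_all {γ : ℝ} (hγ : 1 < γ) : ∃ C : ℝ, ∀ f, Per f → ∀ w : ℝ → ℝ, Periodic w (2 * π) →
    ∀ lam, 0 < lam →
    ∫⁻ x in {x | x ∈ Ioo 0 (2 * π) ∧ ENNReal.ofReal lam < Smax f x}, ENNReal.ofReal (w x) ≤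
      ENNReal.ofReal C * ∫⁻ x in Ioo 0 (2 * π), Phi 1 (‖f x‖ / lam) * Mlog γ w x := by
  obtain ⟨K, hK, h⟩ := trees
  obtain ⟨C, -, H⟩ := any_weight hK hγ
  refine ⟨3 * C, fun f hf w hw lam hl => (glue _ _ fun i => ?_).trans (three _ _).le⟩
  obtain ⟨U, hU⟩ := h f hf i
  rw [← tri_rt i (per_int hf hw γ lam)]
  exact H f _ _ U w hU lam hl

theorem end_all {α β : ℝ} (hα : 0 < α) (hβ0 : 0 < β) (hβ : β < 1) : ∃ C : ℝ, 0 < C ∧ ∀ f, Per f →
    ∀ w : ℝ → ℝ, Periodic w (2 * π) → Ainf α β w → ∀ lam, 0 < lam →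
    ∫⁻ x in {x | x ∈ Ioo 0 (2 * π) ∧ ENNReal.ofReal lam < Smax f x}, ENNReal.ofReal (w x) ≤
      ENNReal.ofReal C * ∫⁻ x in Ioo 0 (2 * π), Phi 1 (‖f x‖ / lam) * Mlog 0 w x := by
  obtain ⟨K, hK, h⟩ := trees
  obtain ⟨C, hC, H⟩ := ainf_end hK hα hβ0 hβ
  refine ⟨3 * C, by positivity, fun f hf w hw ha lam hl => (glue _ _ fun i => ?_).trans
    (three _ _).le⟩
  obtain ⟨U, hU⟩ := h f hf i
  rw [← tri_rt i (per_int hf hw 0 lam)]
  exact H f _ _ U w hU ha lam hl

theorem lp_all {α β p : ℝ} (hα : 0 < α) (hβ0 : 0 < β) (hβ : β < 1) (hp : 0 < p) : ∃ C : ℝ,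
    ∀ f, Per f → ∀ w : ℝ → ℝ, Measurable w → Ainf α β w →
    ∫⁻ x in Ioo 0 (2 * π), Smax f x ^ p * ENNReal.ofReal (w x) ≤ ENNReal.ofReal C *
      ∫⁻ x in Ioo 0 (2 * π), Mlog 1 (fun y => ‖f y‖) x ^ p * ENNReal.ofReal (w x) := by
  obtain ⟨K, hK, h⟩ := trees
  obtain ⟨C, -, H⟩ := ainf_lp (K := K) (by linarith) hα hβ0 hβ hp
  refine ⟨3 * C, fun f hf w mw ha => ?_⟩
  have := glue (fun _ => True) (fun x => Smax f x ^ p * ENNReal.ofReal (w x))
    (X := ENNReal.ofReal C *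
      ∫⁻ x in Ioo 0 (2 * π), Mlog 1 (fun y => ‖f y‖) x ^ p * ENNReal.ofReal (w x)) fun i => by
    obtain ⟨U, hU⟩ := h f hf i
    simp only [and_true, ofPred_mem_eq]
    exact (H f _ _ U w hU (Smax_meas f) mw ha).trans
      (mul_le_mul_right (lintegral_mono_set (rt_sub i)) _)
  simp only [and_true, ofPred_mem_eq] at this
  exact this.trans (three _ _).le

theorem a1_all (A : ℝ) : ∃ C : ℝ, 0 < C ∧ ∀ f, Per f → ∀ w : ℝ → ℝ, Periodic w (2 * π) →
    Measurable w → (∀ x, 0 ≤ w x) → (∀ᵐ x, Mlog 0 w x ≤ ENNReal.ofReal (A * w x)) →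
    ∀ lam, 0 < lam →
    ∫⁻ x in {x | x ∈ Ioo 0 (2 * π) ∧ ENNReal.ofReal lam < Smax f x}, ENNReal.ofReal (w x) ≤
      ENNReal.ofReal C * ∫⁻ x in Ioo 0 (2 * π), Phi 1 (‖f x‖ / lam) * ENNReal.ofReal (w x) := by
  have hA : 1 ≤ max A 1 := le_max_right _ _
  obtain ⟨C, hC, H⟩ := end_all (α := 1 / 2) (β := 1 - 1 / (2 * max A 1)) (by norm_num)
    (by rw [sub_pos, div_lt_one (by positivity)]; linarith) (sub_lt_self _ (by positivity))
  refine ⟨C * max A 1, by positivity, fun f hf w hw mw h0 h1 lam hl => ?_⟩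
  have h2 : ∀ᵐ x, Mlog 0 w x ≤ ENNReal.ofReal (max A 1 * w x) := by
    filter_upwards [h1] with x hx
    exact hx.trans (ENNReal.ofReal_le_ofReal (mul_le_mul_of_nonneg_right (le_max_left _ _) (h0 x)))
  refine (H f hf w hw (ainf_of_a1 hA mw h2) lam hl).trans ?_
  rw [ENNReal.ofReal_mul hC.le, mul_assoc, ← lintegral_const_mul' (ENNReal.ofReal (max A 1)) _
    ENNReal.ofReal_ne_top]
  refine mul_le_mul_right (lintegral_mono_ae (ae_restrict_of_ae ?_)) _
  filter_upwards [h2] with x hx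
  rw [mul_left_comm, ← ENNReal.ofReal_mul (by linarith)]
  exact mul_le_mul_right hx _

theorem weak_all : ∃ C : ℝ, ∀ f, Per f → ∀ lam : ℝ, 0 < lam →
    volume {x | x ∈ Ioo 0 (2 * π) ∧ ENNReal.ofReal lam < Smax f x} ≤
      ENNReal.ofReal (C / lam) * lux 1 (fun y => ‖f y‖) 0 (2 * π) := by
  obtain ⟨C, hC, H⟩ := a1_all 1
  have hπ := Real.two_pi_pos
  refine ⟨(C + 1) * (2 * π), fun f hf lam hl => le_mul_lux (by simp; positivity)
    ENNReal.ofReal_ne_top fun c hc => ?_⟩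
  have hc0 := hc.1
  rw [← ENNReal.ofReal_mul (by positivity)]
  rcases le_total c lam with h | h
  · have := H f hf (fun _ => 1) (fun _ => rfl) measurable_const (fun _ => zero_le_one)
      (Eventually.of_forall fun x => iSup_le fun a => iSup_le fun b => iSup_le fun _ =>
        iSup_le fun _ => by
          simpa using Adm.lux_le (γ := 0) (g := fun _ => 1) (a := a) (b := b) (c := 1)
            ⟨one_pos, by simp [Phi_zero']⟩) lam hl
    simp only [ENNReal.ofReal_one, mul_one, setLIntegral_one] at this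
    refine this.trans ?_
    calc _ ≤ ENNReal.ofReal C * ∫⁻ x in Ioo 0 (2 * π),
          ENNReal.ofReal (lam / c)⁻¹ * Phi 1 (‖f x‖ / c) := by
          refine mul_le_mul_right (lintegral_mono fun x => ?_) _
          rw [show ‖f x‖ / lam = ‖f x‖ / c / (lam / c) by field_simp]
          exact Phi_div zero_le_one (by positivity) ((one_le_div hc0).2 h)
      _ ≤ ENNReal.ofReal C * (ENNReal.ofReal (lam / c)⁻¹ * ENNReal.ofReal (2 * π - 0)) := by
          rw [lintegral_const_mul' _ _ ENNReal.ofReal_ne_top]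
          exact mul_le_mul_right (mul_le_mul_right hc.2 _) _
      _ ≤ _ := by
          rw [← ENNReal.ofReal_mul (by positivity), ← ENNReal.ofReal_mul hC.le]
          refine ENNReal.ofReal_le_ofReal ?_
          have e1 : C * ((lam / c)⁻¹ * (2 * π - 0)) = C * (2 * π / lam * c) := by field_simp; ring
          have e2 : (C + 1) * (2 * π) / lam * c = (C + 1) * (2 * π / lam * c) := by ring
          have : 0 ≤ 2 * π / lam * c := by positivity
          nlinarith
  · refine (measure_mono fun x hx => hx.1).trans ?_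
    rw [Real.volume_Ioo]
    refine ENNReal.ofReal_le_ofReal ?_
    have e2 : (C + 1) * (2 * π) / lam * c = (C + 1) * (2 * π) * (c / lam) := by ring
    have : 1 ≤ c / lam := (one_le_div hl).2 h
    have h3 : 0 ≤ C * (2 * π) := by positivity
    nlinarith

end Vale.Agent.N091W
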