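import Vale.Agent.N091W.Wt
import Vale.Agent.N091.Line

/-!
# The Carleson operator on the line has the properties `Op`
-/

open MeasureTheory Set Real Function Filter Topology
open scoped ENNReal FourierTransform

namespace Vale.Agent.N091W

open Vale.Agent.N091

/-- the Carleson operator on the line -/
noncomputable def TL (g : ℝ → ℂ) (x : ℝ) : ℝ≥0∞ := ⨆ (a : ℝ) (b : ℝ), ‖LS a b g x‖ₑ

theorem le_TL (a b : ℝ) (g : ℝ → ℂ) (x : ℝ) : ‖LS a b g x‖ₑ ≤ TL g x :=
  le_iSup_of_le a (le_iSup_of_le b le_rfl)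

theorem LS_sub (a b : ℝ) {f g : ℝ → ℂ} (hf : Integrable f) (hg : Integrable g) (x : ℝ) :
    LS a b (f - g) x = LS a b f x - LS a b g x := by
  rw [eq_sub_iff_add_eq, ← LS_add a b (hf.sub hg) hg, sub_add_cancel]

theorem LS_cont (a b : ℝ) {g : ℝ → ℂ} (hg : Integrable g) : Continuous (LS a b g) := by
  have : LS a b g = fun x => ∫ y, LK a b (x - y) • g y := funext fun x => LS_kernel hg a b x
  rw [this]
  refine continuous_of_dominated (bound := fun y => |b - a| * ‖g y‖)
    (fun x => (LK_int hg a b x).aestronglyMeasurable)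
    (fun x => Eventually.of_forall fun y => ?_) (hg.norm.const_mul _)
    (Eventually.of_forall fun y => ((LK_cont a b).comp (by fun_prop)).smul continuous_const)
  rw [norm_smul]
  exact mul_le_mul_of_nonneg_right (LK_le a b _) (norm_nonneg _)

/-- the Cauchy kernel -/
noncomputable def ck (t : ℝ) : ℂ := (2 * π * Complex.I * t)⁻¹

theorem norm_ck (t : ℝ) : ‖ck t‖ = (2 * π * |t|)⁻¹ := by
  simp [ck, abs_of_pos Real.pi_pos]

/-- the modulated Cauchy integral -/
noncomputable def AS (g : ℝ → ℂ) (x s : ℝ) : ℂ := ∫ y, 𝐞 (-(y * s)) • (ck (x - y) * g y)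

variable {g : ℝ → ℂ} {m r x z : ℝ}

theorem AS_int (hg : Integrable g) (hr : 0 < r) (h0 : ∀ y, |y - m| < 3 * r → g y = 0)
    (hx : |x - m| < 2 * r) (s : ℝ) : Integrable fun y => 𝐞 (-(y * s)) • (ck (x - y) * g y) := by
  have m1 : Measurable fun y => ck (x - y) := by unfold ck; fun_prop
  have m2 : Continuous fun y : ℝ => ((𝐞 (-(y * s)) : Circle) : ℂ) := by fun_prop
  refine (hg.norm.const_mul r⁻¹).mono' (m2.aestronglyMeasurable.mul
    (m1.aestronglyMeasurable.mul hg.aestronglyMeasurable)) (Eventually.of_forall fun y => ?_)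
  rw [Circle.norm_smul, norm_mul, norm_ck]
  by_cases hy : |y - m| < 3 * r
  · simp [h0 y hy]
  · have : r ≤ |x - y| := by
      have := abs_sub_le y x m
      rw [abs_sub_comm y x] at this
      linarith [not_lt.1 hy]
    refine mul_le_mul_of_nonneg_right (inv_anti₀ hr ?_) (norm_nonneg _)
    nlinarith [Real.pi_gt_three]

theorem LS_AS (hg : Integrable g) (hr : 0 < r) (h0 : ∀ y, |y - m| < 3 * r → g y = 0)
    (hx : |x - m| < 2 * r) (a b : ℝ) :
    LS a b g x = 𝐞 (x * b) • AS g x b - 𝐞 (x * a) • AS g x a := by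
  have i : ∀ s, Integrable fun y =>
      ((𝐞 (x * s) : Circle) : ℂ) * (𝐞 (-(y * s)) • (ck (x - y) * g y)) := fun s =>
    (AS_int hg hr h0 hx s).const_mul _
  have e : ∀ s, 𝐞 (x * s) • AS g x s =
      ∫ y, ((𝐞 (x * s) : Circle) : ℂ) * (𝐞 (-(y * s)) • (ck (x - y) * g y)) := fun s => by
    rw [integral_const_mul]; rfl
  rw [LS_kernel hg, e, e, ← integral_sub (i b) (i a)]
  refine integral_congr_ae (Eventually.of_forall fun y => ?_)
  by_cases hy : |y - m| < 3 * r
  · simp [h0 y hy]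
  · have hne : x - y ≠ 0 := by
      intro h
      rw [sub_eq_zero.1 h] at hx
      linarith [not_lt.1 hy]
    have hc : (2 * π * Complex.I * (x - y : ℝ) : ℂ) ≠ 0 :=
      mul_ne_zero Complex.two_pi_I_ne_zero (by exact_mod_cast hne)
    have h1 := (eq_mul_inv_iff_mul_eq₀ hc).2 (LK_mul a b (x - y))
    have h2 : ∀ s : ℝ, Complex.exp (2 * π * Complex.I * (x - y : ℝ) * s) =
        (𝐞 (x * s) : Circle) * (𝐞 (-(y * s)) : Circle) := by
      intro s
      rw [Real.fourierChar_apply, Real.fourierChar_apply, ← Complex.exp_add]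
      congr 1; push_cast; ring
    simp only [Circle.smul_def, smul_eq_mul]
    rw [h1, h2, h2, ck]; ring

theorem AS_le (hg : Integrable g) (hr : 0 < r) (h0 : ∀ y, |y - m| < 3 * r → g y = 0)
    (hx : |x - m| < 2 * r) (b : ℝ) : ‖AS g x b‖ₑ ≤ TL g x := by
  have h1 : Tendsto (fun a => TL g x + ‖AS g x a‖ₑ) (cocompact ℝ) (𝓝 (TL g x + ‖(0 : ℂ)‖ₑ)) :=
    tendsto_const_nhds.add (Real.tendsto_integral_exp_smul_cocompact _).enorm
  rw [enorm_zero, add_zero] at h1
  refine ge_of_tendsto' h1 fun a => ?_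
  have h2 : 𝐞 (x * b) • AS g x b = LS a b g x + 𝐞 (x * a) • AS g x a := by
    rw [LS_AS hg hr h0 hx, sub_add_cancel]
  have h3 := enorm_add_le (LS a b g x) (𝐞 (x * a) • AS g x a)
  rw [← h2, ← ofReal_norm, ← ofReal_norm (𝐞 (x * a) • AS g x a), Circle.norm_smul,
    Circle.norm_smul, ofReal_norm, ofReal_norm] at h3
  exact h3.trans (add_le_add_left (le_TL _ _ _ _) _)

theorem AS_diff (hg : Integrable g) (hr : 0 < r) (h0 : ∀ y, |y - m| < 3 * r → g y = 0)
    (hx : |x - m| < r) (hz : |z - m| < 2 * r) (s : ℝ) :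
    ‖AS g x s - AS g z s‖ₑ ≤ 3 * ∫⁻ y, ‖g y‖ₑ * ENNReal.ofReal (r / (y - m) ^ 2) := by
  rw [AS, AS, ← integral_sub (AS_int hg hr h0 (by linarith) s) (AS_int hg hr h0 hz s),
    ← lintegral_const_mul' _ _ (by simp)]
  refine (enorm_integral_le_lintegral_enorm _).trans (lintegral_mono fun y => ?_)
  by_cases hy : |y - m| < 3 * r
  · simp [h0 y hy]
  have hy' := not_lt.1 hy
  have a1 : 2 / 3 * |y - m| ≤ |x - y| := by
    have := abs_sub_le y x m
    rw [abs_sub_comm y x] at this
    linarith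
  have a2 : 1 / 3 * |y - m| ≤ |z - y| := by
    have := abs_sub_le y z m
    rw [abs_sub_comm y z] at this
    linarith
  have a3 : |z - x| ≤ 3 * r := by
    have := abs_sub_le z m x
    rw [abs_sub_comm m x] at this
    linarith
  have p0 : 0 < |y - m| := by linarith
  have p1 : 0 < |x - y| := by linarith
  have p2 : 0 < |z - y| := by linarith
  have e : ck (x - y) - ck (z - y) = ck (x - y) * ((z - x : ℝ) / (z - y : ℝ)) := by
    have h1 : ((x - y : ℝ) : ℂ) ≠ 0 := by exact_mod_cast abs_pos.1 p1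
    have h2 : ((z - y : ℝ) : ℂ) ≠ 0 := by exact_mod_cast abs_pos.1 p2
    have h3 : (π : ℂ) ≠ 0 := by exact_mod_cast Real.pi_ne_zero
    unfold ck
    field_simp
    push_cast; ring
  rw [← smul_sub, ← sub_mul, ← ofReal_norm, Circle.norm_smul, norm_mul, ← ofReal_norm,
    ← ENNReal.ofReal_mul (norm_nonneg _), ← ENNReal.ofReal_ofNat 3,
    ← ENNReal.ofReal_mul (by norm_num), e, norm_mul, norm_ck, norm_div, Complex.norm_real,
    Complex.norm_real, Real.norm_eq_abs, Real.norm_eq_abs, ← sq_abs (y - m)]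
  refine ENNReal.ofReal_le_ofReal ?_
  have : (2 * π * |x - y|)⁻¹ * (|z - x| / |z - y|) ≤ 3 * (r / |y - m| ^ 2) :=
    calc (2 * π * |x - y|)⁻¹ * (|z - x| / |z - y|)
        ≤ (2 * 3 * (2 / 3 * |y - m|))⁻¹ * (3 * r / (1 / 3 * |y - m|)) := by
          gcongr; exact Real.pi_gt_three.le
      _ = 9 / 4 * (r / |y - m| ^ 2) := by field_simp; norm_num
      _ ≤ _ := by gcongr; norm_num
  nlinarith [norm_nonneg (g y)]

theorem op_TL {C : ℝ} (hC : 1 ≤ C) (h : ∀ (T : ℝ) [Fact (0 < T)], MaxC C T ℂ) : Op TL C where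
  one := hC
  add g k x hg hk := iSup_le fun a => iSup_le fun b => by
    rw [LS_add a b hg hk]
    exact (enorm_add_le _ _).trans (add_le_add (le_TL _ _ _ _) (le_TL _ _ _ _))
  sub g k x hg hk := iSup_le fun a => iSup_le fun b => by
    rw [LS_sub a b hg hk]
    exact enorm_sub_le.trans (add_le_add (le_TL _ _ _ _) (le_TL _ _ _ _))
  zero g x hg := by
    have : ∀ a b, LS a b g x = 0 := fun a b => by
      rw [LS_congr a b hg, LS_kernel (integrable_zero _ _ _)]; simp
    simp [TL, this]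
  opn g y hg := by
    simp only [TL, lt_iSup_iff, ofPred_exists]
    exact isOpen_iUnion fun a => isOpen_iUnion fun b =>
      isOpen_lt continuous_const (LS_cont a b hg).enorm
  weak g s hg hs := by
    refine le_trans (measure_mono fun x hx => ?_) ((max_line h g hg s hs).trans
      (mul_le_mul_right (lintegral_mono fun x => ?_) _))
    · simp only [TL, lt_iSup_iff, mem_ofPred_eq] at hx
      obtain ⟨a, b, hx⟩ := hx
      rw [← ofReal_norm] at hx
      exact ⟨a, b, (ENNReal.ofReal_lt_ofReal_iff_of_nonneg hs.le).1 hx⟩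
    · have : 0 ≤ ‖g x‖ / s := by positivity
      rw [Phi_one]
      exact ENNReal.ofReal_le_ofReal (mul_le_mul_of_nonneg_left
        (Real.log_le_log (by linarith) (by linarith)) this)
  far g m r x z hg hr h0 hx hz := iSup_le fun a => iSup_le fun b => by
    have k : ∀ s, ‖𝐞 (x * s) • AS g x s‖ₑ ≤
        TL g z + 3 * ∫⁻ y, ‖g y‖ₑ * ENNReal.ofReal (r / (y - m) ^ 2) := by
      intro s
      rw [← ofReal_norm, Circle.norm_smul, ofReal_norm, ← add_sub_cancel (AS g z s) (AS g x s)]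
      exact (enorm_add_le _ _).trans (add_le_add (AS_le hg hr h0 hz s) (AS_diff hg hr h0 hx hz s))
    rw [LS_AS hg hr h0 (show |x - m| < 2 * r by linarith)]
    refine enorm_sub_le.trans ((add_le_add (k b) (k a)).trans (le_of_eq ?_))
    ring

end Vale.Agent.N091W
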