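import Vale.Agent.N091W.Cover

/-!
# The Young functions and the Luxemburg averages
-/

open MeasureTheory Set Real Function
open scoped ENNReal

namespace Vale.Agent.N091W

variable {γ t s c a b : ℝ} {g : ℝ → ℝ}

theorem log2_gt : (2 / 3 : ℝ) < Real.log 2 := by linarith [Real.log_two_gt_d9]

theorem log_ge (ht : 0 ≤ t) : 2 / 3 < Real.log (2 + t) :=
  log2_gt.trans_le (Real.log_le_log two_pos (by linarith))

theorem Phi_meas (γ : ℝ) : Measurable (Phi γ) := by
  unfold Phi; fun_prop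

theorem Phi_zero (γ : ℝ) : Phi γ 0 = 0 := by simp [Phi]

theorem Phi_one (t : ℝ) : Phi 1 t = ENNReal.ofReal (t * Real.log (2 + t)) := by simp [Phi]

theorem Phi_zero' (t : ℝ) : Phi 0 t = ENNReal.ofReal t := by simp [Phi]

theorem le_Phi (hγ : 0 ≤ γ) (hs : 0 ≤ s) (h : s ≤ t) :
    ENNReal.ofReal (t * Real.log (2 + s) ^ γ) ≤ Phi γ t := by
  refine ENNReal.ofReal_le_ofReal (mul_le_mul_of_nonneg_left ?_ (hs.trans h))
  exact Real.rpow_le_rpow (by linarith [log_ge hs]) (Real.log_le_log (by linarith) (by linarith)) hγ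

theorem Phi_mono (hγ : 0 ≤ γ) (hs : 0 ≤ s) (h : s ≤ t) : Phi γ s ≤ Phi γ t := by
  refine le_trans (ENNReal.ofReal_le_ofReal ?_) (le_Phi hγ hs h)
  exact mul_le_mul_of_nonneg_right h (Real.rpow_nonneg (by linarith [log_ge hs]) _)

theorem Phi_div (hγ : 0 ≤ γ) (ht : 0 ≤ t) (hc : 1 ≤ c) :
    Phi γ (t / c) ≤ ENNReal.ofReal c⁻¹ * Phi γ t := by
  have h0 : 0 ≤ t / c := by positivity
  refine le_trans ?_ (mul_le_mul_right (le_Phi hγ h0 (div_le_self ht hc)) _)
  rw [← ENNReal.ofReal_mul (by positivity), Phi]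
  exact le_of_eq (by congr 1; ring)

theorem Phi_mul (ht : 0 ≤ t) (hc : 1 ≤ c) :
    Phi 1 (c * t) ≤ ENNReal.ofReal (c * (1 + 2 * Real.log c)) * Phi 1 t := by
  have hl : 0 ≤ Real.log c := Real.log_nonneg hc
  rw [Phi_one, Phi_one, ← ENNReal.ofReal_mul (by positivity)]
  refine ENNReal.ofReal_le_ofReal ?_
  have h1 : Real.log (2 + c * t) ≤ Real.log c + Real.log (2 + t) := by
    rw [← Real.log_mul (by positivity) (by positivity)]
    exact Real.log_le_log (by positivity) (by nlinarith)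
  have h2 := log_ge ht
  have h3 : Real.log (2 + c * t) ≤ (1 + 2 * Real.log c) * Real.log (2 + t) := by nlinarith
  calc c * t * Real.log (2 + c * t) ≤ c * t * ((1 + 2 * Real.log c) * Real.log (2 + t)) := by
        gcongr
    _ = _ := by ring

theorem le_Phi_one (ht : 0 ≤ t) : ENNReal.ofReal t ≤ ENNReal.ofReal (3 / 2) * Phi 1 t := by
  rw [Phi_one, ← ENNReal.ofReal_mul (by norm_num)]
  exact ENNReal.ofReal_le_ofReal (by nlinarith [log_ge ht])

/-- `c` is admissible in the definition of the average -/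
def Adm (γ : ℝ) (g : ℝ → ℝ) (a b c : ℝ) : Prop :=
  0 < c ∧ ∫⁻ x in Ioo a b, Phi γ (g x / c) ≤ ENNReal.ofReal (b - a)

theorem Adm.lux_le (h : Adm γ g a b c) : lux γ g a b ≤ ENNReal.ofReal c :=
  iInf_le_of_le c (iInf_le_of_le h.1 (iInf_le_of_le h.2 le_rfl))

theorem Adm.mono (hγ : 0 ≤ γ) (hg : ∀ x, 0 ≤ g x) (h : Adm γ g a b c) (hs : c ≤ s) :
    Adm γ g a b s := by
  have := h.1
  refine ⟨h.1.trans_le hs, le_trans (lintegral_mono fun x => ?_) h.2⟩
  have := hg x
  exact Phi_mono hγ (div_nonneg (hg x) (h.1.le.trans hs)) (by gcongr)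

theorem adm_of_lt (hγ : 0 ≤ γ) (hg : ∀ x, 0 ≤ g x) (h : lux γ g a b < ENNReal.ofReal s) :
    Adm γ g a b s := by
  simp only [lux, iInf_lt_iff] at h
  obtain ⟨c, h1, h2, h3⟩ := h
  exact Adm.mono hγ hg ⟨h1, h2⟩ ((ENNReal.ofReal_lt_ofReal_iff_of_nonneg h1.le).1 h3).le

theorem lt_of_lt_lux (hs : 0 < s) (h : ENNReal.ofReal s < lux γ g a b) :
    ENNReal.ofReal (b - a) < ∫⁻ x in Ioo a b, Phi γ (g x / s) := by
  by_contra h'
  exact absurd (Adm.lux_le ⟨hs, not_lt.1 h'⟩) (not_le.2 h)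

theorem le_mul_lux {X K : ℝ≥0∞} (h0 : K ≠ 0) (h1 : K ≠ ∞)
    (H : ∀ c, Adm γ g a b c → X ≤ K * ENNReal.ofReal c) : X ≤ K * lux γ g a b := by
  rw [mul_comm, ← ENNReal.div_le_iff h0 h1]
  refine le_iInf fun c => le_iInf fun hc => le_iInf fun h => ?_
  rw [ENNReal.div_le_iff h0 h1, mul_comm]
  exact H c ⟨hc, h⟩

theorem lux_le_Mlog {x : ℝ} (h : x ∈ Ioo a b) : lux γ g a b ≤ Mlog γ g x :=
  le_iSup_of_le a (le_iSup_of_le b (le_iSup_of_le h.1 (le_iSup_of_le h.2 le_rfl)))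

theorem Mlog_open (γ : ℝ) (g : ℝ → ℝ) (y : ℝ≥0∞) : IsOpen {x | y < Mlog γ g x} := by
  have : {x | y < Mlog γ g x} = ⋃ (a : ℝ) (b : ℝ) (_ : y < lux γ g a b), Ioo a b := by
    ext x
    simp only [Mlog, lt_iSup_iff, mem_iUnion, mem_ofPred_eq, mem_Ioo]
    constructor
    · rintro ⟨a, b, h1, h2, h3⟩; exact ⟨a, b, h3, h1, h2⟩
    · rintro ⟨a, b, h3, h1, h2⟩; exact ⟨a, b, h1, h2, h3⟩
  rw [this]
  exact isOpen_iUnion fun _ => isOpen_iUnion fun _ => isOpen_iUnion fun _ => isOpen_Ioo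

theorem Mlog_meas (γ : ℝ) (g : ℝ → ℝ) : Measurable (Mlog γ g) :=
  measurable_of_Ioi fun y => (Mlog_open γ g y).measurableSet

theorem int_le_of_Phi (hg : ∀ x, 0 ≤ g x) (hc : 0 < c) (W : Set ℝ) :
    ∫⁻ x in W, ENNReal.ofReal (g x) ≤
      ENNReal.ofReal (3 / 2 * c) * ∫⁻ x in W, Phi 1 (g x / c) := by
  rw [← lintegral_const_mul' _ _ ENNReal.ofReal_ne_top]
  refine lintegral_mono fun x => ?_
  have h1 := le_Phi_one (div_nonneg (hg x) hc.le)
  calc ENNReal.ofReal (g x) = ENNReal.ofReal c * ENNReal.ofReal (g x / c) := by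
        rw [← ENNReal.ofReal_mul hc.le]; congr 1; field_simp
    _ ≤ ENNReal.ofReal c * (ENNReal.ofReal (3 / 2) * Phi 1 (g x / c)) := by gcongr
    _ = _ := by rw [ENNReal.ofReal_mul (by norm_num)]; ring

/-- the modulus of the Orlicz-Hoelder inequality -/
noncomputable def psi (γ s θ : ℝ) : ℝ := s * θ + Real.log (2 + s) ^ (-γ)

theorem psi_pos (γ : ℝ) {θ : ℝ} (hs : 0 ≤ s) (hθ : 0 ≤ θ) : 0 < psi γ s θ :=
  add_pos_of_nonneg_of_pos (by positivity) (Real.rpow_pos_of_pos (by linarith [log_ge hs]) _)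

theorem holder (hγ : 0 ≤ γ) (hs : 0 ≤ s) {θ : ℝ} (hθ : 0 ≤ θ) (hab : a < b) {E : Set ℝ}
    (hE : E ⊆ Ioo a b) (hv : volume E ≤ ENNReal.ofReal (θ * (b - a))) :
    ∫⁻ x in E, ENNReal.ofReal (g x) ≤
      ENNReal.ofReal (psi γ s θ) * ENNReal.ofReal (b - a) * lux γ g a b := by
  have hp := psi_pos γ hs hθ
  have hl : 0 < Real.log (2 + s) := by linarith [log_ge hs]
  have hL : 0 < Real.log (2 + s) ^ (-γ) := Real.rpow_pos_of_pos hl _
  refine le_mul_lux (mul_ne_zero (by simpa using hp) (by simpa using hab))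
    (ENNReal.mul_ne_top ENNReal.ofReal_ne_top ENNReal.ofReal_ne_top) fun c hc => ?_
  have hc0 := hc.1
  have key : ∀ x, ENNReal.ofReal (g x) ≤ ENNReal.ofReal (c * s) +
      ENNReal.ofReal (c * Real.log (2 + s) ^ (-γ)) * Phi γ (g x / c) := by
    intro x
    rcases le_total (g x / c) s with h | h
    · exact le_add_right (ENNReal.ofReal_le_ofReal (by rwa [div_le_iff₀' hc0] at h))
    · refine le_add_left (le_trans ?_ (mul_le_mul_right (le_Phi hγ hs h) _))
      rw [← ENNReal.ofReal_mul (by positivity), Real.rpow_neg hl.le]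
      have : Real.log (2 + s) ^ γ ≠ 0 := (Real.rpow_pos_of_pos hl _).ne'
      exact le_of_eq (by congr 1; field_simp)
  calc ∫⁻ x in E, ENNReal.ofReal (g x) ≤ ∫⁻ x in E, (ENNReal.ofReal (c * s) +
        ENNReal.ofReal (c * Real.log (2 + s) ^ (-γ)) * Phi γ (g x / c)) := lintegral_mono key
    _ = ENNReal.ofReal (c * s) * volume E + ENNReal.ofReal (c * Real.log (2 + s) ^ (-γ)) *
        ∫⁻ x in E, Phi γ (g x / c) := by
        rw [lintegral_add_left measurable_const, setLIntegral_const,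
          lintegral_const_mul' _ _ ENNReal.ofReal_ne_top]
    _ ≤ ENNReal.ofReal (c * s) * ENNReal.ofReal (θ * (b - a)) +
        ENNReal.ofReal (c * Real.log (2 + s) ^ (-γ)) * ENNReal.ofReal (b - a) := by
        gcongr
        exact (lintegral_mono_set hE).trans hc.2
    _ = _ := by
        have := sub_pos.2 hab
        rw [← ENNReal.ofReal_mul (by positivity), ← ENNReal.ofReal_mul (by positivity),
          ← ENNReal.ofReal_add (by positivity) (by positivity), ← ENNReal.ofReal_mul hp.le,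
          ← ENNReal.ofReal_mul (by positivity)]
        congr 1; unfold psi; ring

theorem lux_periodic {T : ℝ} (hg : Periodic g T) (γ a b : ℝ) :
    lux γ g (a + T) (b + T) = lux γ g a b := by
  have : ∀ c, ∫⁻ x in Ioo (a + T) (b + T), Phi γ (g x / c) = ∫⁻ x in Ioo a b, Phi γ (g x / c) := by
    intro c
    have h := (measurePreserving_add_right volume T).setLIntegral_comp_preimage_emb
      (MeasurableEquiv.addRight T).measurableEmbedding (fun x => Phi γ (g x / c))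
      (Ioo (a + T) (b + T))
    rw [← h, preimage_add_const_Ioo, add_sub_cancel_right, add_sub_cancel_right]
    simp only [hg _]
  simp only [lux, this, add_sub_add_right_eq_sub]

theorem Mlog_periodic {T : ℝ} (hg : Periodic g T) (γ : ℝ) : Periodic (Mlog γ g) T := by
  have : ∀ {T : ℝ}, Periodic g T → ∀ x, Mlog γ g x ≤ Mlog γ g (x + T) := by
    intro T hg x
    refine iSup_le fun a => iSup_le fun b => iSup_le fun h1 => iSup_le fun h2 => ?_
    rw [← lux_periodic hg]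
    exact lux_le_Mlog ⟨by linarith, by linarith⟩
  intro x
  refine le_antisymm ?_ (this hg x)
  simpa using this hg.neg (x + T)

theorem lint_periodic {T : ℝ} (hT : 0 < T) {F : ℝ → ℝ≥0∞} (hF : Periodic F T) (a : ℝ) :
    ∫⁻ x in Ioo a (a + T), F x = ∫⁻ x in Ioo 0 T, F x := by
  rw [setLIntegral_congr Ioo_ae_eq_Ioc, setLIntegral_congr (Ioo_ae_eq_Ioc (a := 0))]
  have h := (isAddFundamentalDomain_Ioc hT a).setLIntegral_eq (isAddFundamentalDomain_Ioc hT 0) F
    fun g x => hF.map_vadd_zmultiples g x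
  rwa [zero_add] at h

end Vale.Agent.N091W
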