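import Vale.Agent.N091W.Phi

/-!
# One step of the stopping time construction
-/

open MeasureTheory Set Real Function
open scoped ENNReal

namespace Vale.Agent.N091W

/-- the properties of the maximal operator that are used -/
structure Op (T : (ℝ → ℂ) → ℝ → ℝ≥0∞) (C : ℝ) : Prop where
  one : 1 ≤ C
  add : ∀ g h x, Integrable g → Integrable h → T (g + h) x ≤ T g x + T h x
  sub : ∀ g h x, Integrable g → Integrable h → T (g - h) x ≤ T g x + T h x
  zero : ∀ g x, g =ᵐ[volume] 0 → T g x = 0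
  opn : ∀ g y, Integrable g → IsOpen {x | y < T g x}
  weak : ∀ g s, Integrable g → 0 < s →
    volume {x | ENNReal.ofReal s < T g x} ≤ ENNReal.ofReal C * ∫⁻ x, Phi 1 (‖g x‖ / s)
  far : ∀ g (m r x z : ℝ), Integrable g → 0 < r → (∀ y, |y - m| < 3 * r → g y = 0) →
    |x - m| < r → |z - m| < 2 * r →
    T g x ≤ 2 * T g z + 6 * ∫⁻ y, ‖g y‖ₑ * ENNReal.ofReal (r / (y - m) ^ 2)

/-- the tripled interval -/
def tri (p : ℝ × ℝ) : Set ℝ := Ioo (2 * p.1 - p.2) (2 * p.2 - p.1)

/-- the part of `f` on the tripled interval -/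
noncomputable def cut (f : ℝ → ℂ) (p : ℝ × ℝ) : ℝ → ℂ := (tri p).indicator f

/-- the average of `f` on the tripled interval -/
noncomputable def L (f : ℝ → ℂ) (p : ℝ × ℝ) : ℝ≥0∞ :=
  lux 1 (fun x => ‖f x‖) (2 * p.1 - p.2) (2 * p.2 - p.1)

/-- local integrability -/
def Loc (f : ℝ → ℂ) : Prop := ∀ a b, IntegrableOn f (Ioo a b)

variable {T : (ℝ → ℂ) → ℝ → ℝ≥0∞} {C : ℝ} {f : ℝ → ℂ} {p q : ℝ × ℝ}

theorem Loc.cut (hf : Loc f) (p : ℝ × ℝ) : Integrable (cut f p) :=
  (hf _ _).integrable_indicator measurableSet_Ioo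

theorem sub_tri {x : ℝ} (hx : x ∈ Ioo p.1 p.2) : x ∈ tri p :=
  ⟨by linarith [hx.1, hx.2], by linarith [hx.1, hx.2]⟩

theorem tri_mono (h1 : p.1 ≤ q.1) (h2 : q.2 ≤ p.2) : tri q ⊆ tri p :=
  Ioo_subset_Ioo (by linarith) (by linarith)

theorem cut_Phi (f : ℝ → ℂ) (p : ℝ × ℝ) (s : ℝ) :
    ∫⁻ x, Phi 1 (‖cut f p x‖ / s) = ∫⁻ x in tri p, Phi 1 (‖f x‖ / s) := by
  rw [← lintegral_indicator (s := tri p) measurableSet_Ioo]
  refine lintegral_congr fun x => ?_
  by_cases hx : x ∈ tri p <;> simp [cut, hx, Phi_zero]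

theorem cut_small {A Λ : ℝ} (hΛ : 1 ≤ Λ)
    (hA : Adm 1 (fun x => ‖f x‖) (2 * p.1 - p.2) (2 * p.2 - p.1) A) :
    ∫⁻ x, Phi 1 (‖cut f p x‖ / (Λ * A)) ≤ ENNReal.ofReal (3 * (p.2 - p.1) / Λ) := by
  have := hA.1
  rw [cut_Phi]
  calc _ ≤ ∫⁻ x in tri p, ENNReal.ofReal Λ⁻¹ * Phi 1 (‖f x‖ / A) := by
        refine lintegral_mono fun x => ?_
        rw [mul_comm Λ A, ← div_div]
        exact Phi_div zero_le_one (by positivity) hΛ
    _ ≤ ENNReal.ofReal Λ⁻¹ * ENNReal.ofReal (2 * p.2 - p.1 - (2 * p.1 - p.2)) := by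
        rw [lintegral_const_mul' _ _ ENNReal.ofReal_ne_top]
        exact mul_le_mul_right hA.2 _
    _ = _ := by
        rw [← ENNReal.ofReal_mul (by positivity)]; congr 1; ring

theorem tail {G : ℝ → ℝ≥0∞} (hG : AEMeasurable G) {m r κ : ℝ} (hr : 0 < r) (hκ : 0 ≤ κ)
    (h0 : ∀ y, |y - m| < 3 * r → G y = 0)
    (h : ∀ ρ, 3 * r ≤ ρ → ∫⁻ y in Ioo (m - ρ) (m + ρ), G y ≤ ENNReal.ofReal (κ * (2 * ρ))) :
    ∫⁻ y, G y * ENNReal.ofReal (r / (y - m) ^ 2) ≤ ENNReal.ofReal (8 / 3 * κ) := by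
  calc _ ≤ ∫⁻ y, ∑' j : ℕ, ENNReal.ofReal (1 / (9 * r * 4 ^ j)) *
        (Ioo (m - 3 * r * 2 ^ (j + 1)) (m + 3 * r * 2 ^ (j + 1))).indicator G y := by
        refine lintegral_mono fun y => ?_
        by_cases hy : |y - m| < 3 * r
        · simp [h0 y hy]
        · have h1 : 1 ≤ |y - m| / (3 * r) := by rw [le_div_iff₀ (by positivity)]; linarith
          obtain ⟨j, h2, h3⟩ := exists_nat_pow_near h1 one_lt_two
          rw [le_div_iff₀ (by positivity)] at h2
          rw [div_lt_iff₀ (by positivity), abs_lt] at h3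
          refine le_trans ?_ (ENNReal.le_tsum j)
          rw [indicator_of_mem (by constructor <;> linarith [h3.1, h3.2]), mul_comm]
          refine mul_le_mul_left (ENNReal.ofReal_le_ofReal ?_) _
          have h4 : (2 ^ j * (3 * r)) ^ 2 ≤ (y - m) ^ 2 := by
            rw [← sq_abs (y - m)]; gcongr
          have h5 : (4 : ℝ) ^ j = (2 ^ j) ^ 2 := by rw [← pow_mul, mul_comm, pow_mul]; norm_num
          rw [h5]
          calc r / (y - m) ^ 2 ≤ r / (2 ^ j * (3 * r)) ^ 2 := by gcongr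
            _ = _ := by field_simp; norm_num
    _ = ∑' j : ℕ, ENNReal.ofReal (1 / (9 * r * 4 ^ j)) *
        ∫⁻ y in Ioo (m - 3 * r * 2 ^ (j + 1)) (m + 3 * r * 2 ^ (j + 1)), G y := by
        rw [lintegral_tsum fun j => (hG.indicator measurableSet_Ioo).const_mul _]
        refine tsum_congr fun j => ?_
        rw [lintegral_const_mul' _ _ ENNReal.ofReal_ne_top, lintegral_indicator measurableSet_Ioo]
    _ ≤ ∑' j : ℕ, ENNReal.ofReal (4 / 3 * κ * (1 / 2) ^ j) := by
        refine ENNReal.tsum_le_tsum fun j => ?_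
        have h1 : (1 : ℝ) ≤ 2 ^ (j + 1) := one_le_pow₀ one_le_two
        refine (mul_le_mul_right (h _ (by nlinarith)) _).trans (le_of_eq ?_)
        rw [← ENNReal.ofReal_mul (by positivity)]
        have h5 : (4 : ℝ) ^ j = (2 ^ j) ^ 2 := by rw [← pow_mul, mul_comm, pow_mul]; norm_num
        rw [h5, one_div_pow]
        congr 1; field_simp; ring
    _ = _ := by
        rw [← ENNReal.ofReal_tsum_of_nonneg (fun j => by positivity)
          (summable_geometric_two.mul_left _), tsum_mul_left, tsum_geometric_two]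
        congr 1; ring

theorem step0 (hT : Op T C) (hf : Loc f) (hp : p.1 < p.2) {A : ℝ}
    (hA : Adm 1 (fun x => ‖f x‖) (2 * p.1 - p.2) (2 * p.2 - p.1) A) :
    ∃ E : Set ℝ, IsOpen E ∧ E ⊆ Ioo p.1 p.2 ∧ volume E ≤ ENNReal.ofReal ((p.2 - p.1) / 2) ∧
      (∀ x ∈ Ioo p.1 p.2, x ∉ E → T (cut f p) x ≤
        ENNReal.ofReal ((2 * (90 * C) + 26) * (90 * C * A))) ∧
      ∀ q, IsComp E q → ∀ x ∈ Ioo q.1 q.2, T (cut f p) x ≤
        ENNReal.ofReal ((2 * (90 * C) + 26) * (90 * C * A)) + T (cut f q) x := by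
  have hC := hT.one
  have hA0 := hA.1
  set Λ := 90 * C with hΛ
  have hΛ1 : 1 ≤ Λ := by linarith
  set s := Λ * A with hs
  have hs0 : 0 < s := by positivity
  have hl : 0 < p.2 - p.1 := sub_pos.2 hp
  set g := cut f p with hg
  have ig : Integrable g := hf.cut p
  set G := {x | ENNReal.ofReal s < T g x} with hG
  have oG : IsOpen G := hT.opn g _ ig
  have i1 : ∫⁻ x, Phi 1 (‖g x‖ / s) ≤ ENNReal.ofReal (3 * (p.2 - p.1) / Λ) := cut_small hΛ1 hA
  have i2 : volume G ≤ ENNReal.ofReal (C * (3 * (p.2 - p.1) / Λ)) := by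
    rw [ENNReal.ofReal_mul (by linarith)]
    exact (hT.weak g s ig hs0).trans (mul_le_mul_right i1 _)
  set h : ℝ → ℝ≥0∞ := fun x => G.indicator (fun _ => 2) x + Phi 1 (‖g x‖ / s) with hh
  have ih : ∀ W : Set ℝ, ∫⁻ x in W, h x =
      2 * volume (G ∩ W) + ∫⁻ x in W, Phi 1 (‖g x‖ / s) := by
    intro W
    rw [lintegral_add_left (measurable_const.indicator oG.measurableSet),
      lintegral_indicator_const oG.measurableSet, Measure.restrict_apply oG.measurableSet]
  have i3 : ∫⁻ x in univ, h x ≤ ENNReal.ofReal ((p.2 - p.1) / 10) := by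
    rw [ih, inter_univ, Measure.restrict_univ]
    refine (add_le_add (mul_le_mul_right i2 _) i1).trans ?_
    rw [← ENNReal.ofReal_ofNat 2, ← ENNReal.ofReal_mul (by norm_num),
      ← ENNReal.ofReal_add (by positivity) (by positivity)]
    refine ENNReal.ofReal_le_ofReal ?_
    have : 2 * (C * (3 * (p.2 - p.1) / Λ)) + 3 * (p.2 - p.1) / Λ =
        (p.2 - p.1) * ((6 * C + 3) / Λ) := by ring
    rw [this, div_eq_mul_inv _ (10 : ℝ)]
    gcongr
    rw [div_le_iff₀ (by positivity)]; linarith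
  set t := {q : ℝ × ℝ | q.1 < q.2 ∧ ENNReal.ofReal (q.2 - q.1) < ∫⁻ x in Ioo q.1 q.2, h x} with ht
  set E0 := ⋃ q ∈ t, Ioo q.1 q.2 with hE0
  have i4 : volume E0 ≤ ENNReal.ofReal ((p.2 - p.1) / 2) := by
    have := cover t Prod.fst Prod.snd (fun q => Ioo q.1 q.2) volume h (fun _ => 1) 1 (by simp) univ
      ((p.2 - p.1) / 10) (fun q hq => hq.1) (fun q hq => ?_) (fun _ _ => subset_univ _)
      (fun q hq => hq.2.le) fun a b y _ => ?_
    · simp only [mul_one] at this
      refine this.trans ((mul_le_mul_right i3 _).trans (le_of_eq ?_))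
      rw [← ENNReal.ofReal_ofNat 5, ← ENNReal.ofReal_mul (by norm_num)]
      congr 1; ring
    · have := (hq.2.trans_le (lintegral_mono_set (subset_univ _))).trans_le i3
      exact ((ENNReal.ofReal_lt_ofReal_iff (by positivity)).1 this).le
    · rw [one_mul, mul_one, ← Real.volume_Ioo]
      exact measure_mono (iUnion₂_subset fun q hq => hq.2)
  have out : ∀ e c d : ℝ, e ∉ E0 → e ∈ Ioo c d →
      2 * volume (G ∩ Ioo c d) ≤ ENNReal.ofReal (d - c) ∧
        ∫⁻ x in Ioo c d, Phi 1 (‖g x‖ / s) ≤ ENNReal.ofReal (d - c) := by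
    intro e c d he hcd
    have : ∫⁻ x in Ioo c d, h x ≤ ENNReal.ofReal (d - c) := by
      by_contra hn
      exact he (mem_iUnion₂.2 ⟨(c, d), ⟨hcd.1.trans hcd.2, not_le.1 hn⟩, hcd⟩)
    rw [ih] at this
    exact ⟨le_self_add.trans this, le_add_self.trans this⟩
  have oE : IsOpen E0 := isOpen_biUnion fun _ _ => isOpen_Ioo
  refine ⟨E0 ∩ Ioo p.1 p.2, oE.inter isOpen_Ioo, inter_subset_right,
    (measure_mono inter_subset_left).trans i4, fun x hx hxE => ?_, fun q hq x hx => ?_⟩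
  · have hx0 : x ∉ E0 := fun h => hxE ⟨h, hx⟩
    have : x ∉ G := by
      intro hxG
      obtain ⟨ε, hε, hb⟩ := Metric.isOpen_iff.1 oG x hxG
      rw [Real.ball_eq_Ioo] at hb
      have h1 := (out x (x - ε) (x + ε) hx0 ⟨by linarith, by linarith⟩).1
      rw [inter_eq_right.2 hb, Real.volume_Ioo, ← ENNReal.ofReal_ofNat 2,
        ← ENNReal.ofReal_mul (by norm_num), ENNReal.ofReal_le_ofReal_iff (by linarith)] at h1
      linarith
    refine (not_lt.1 this).trans (ENNReal.ofReal_le_ofReal ?_)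
    nlinarith
  · have hq0 := hq.1
    have hsub : Ioo q.1 q.2 ⊆ Ioo p.1 p.2 := hq.2.1.trans inter_subset_right
    obtain ⟨k1, k2⟩ := (Ioo_subset_Ioo_iff hq0).1 hsub
    have hlen : q.2 - q.1 ≤ (p.2 - p.1) / 2 := by
      have := (measure_mono (hq.2.1.trans inter_subset_left)).trans i4
      rwa [Real.volume_Ioo, ENNReal.ofReal_le_ofReal_iff (by positivity)] at this
    obtain ⟨e, he, he1, he2⟩ : ∃ e, e ∉ E0 ∧ q.1 ≤ e ∧ e ≤ q.2 := by
      rcases k1.lt_or_eq with h1 | h1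
      · exact ⟨q.1, fun h => hq.2.2.1 ⟨h, h1, by linarith⟩, le_rfl, hq0.le⟩
      · exact ⟨q.2, fun h => hq.2.2.2 ⟨h, by linarith, by linarith⟩, hq0.le, le_rfl⟩
    set m := (q.1 + q.2) / 2 with hm
    set r := (q.2 - q.1) / 2 with hr
    have hr0 : 0 < r := by linarith
    have hball : ∀ ρ, r < ρ → e ∈ Ioo (m - ρ) (m + ρ) := fun ρ hρ => ⟨by linarith, by linarith⟩
    have hts : tri q ⊆ tri p := tri_mono k1 k2
    have i1q : Integrable (cut f q) := hf.cut q
    have a1 : Adm 1 (fun x => ‖f x‖) (2 * q.1 - q.2) (2 * q.2 - q.1) s := by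
      refine ⟨hs0, le_trans (le_of_eq ?_) (out e _ _ he ⟨by linarith, by linarith⟩).2⟩
      refine setLIntegral_congr_fun measurableSet_Ioo fun y hy => ?_
      simp only [hg, cut, indicator_of_mem (hts hy)]
    have b1 : volume {x | ENNReal.ofReal (Λ * s) < T (cut f q) x} ≤ ENNReal.ofReal r := by
      refine (hT.weak _ _ i1q (by positivity)).trans
        ((mul_le_mul_right (cut_small hΛ1 a1) _).trans ?_)
      rw [← ENNReal.ofReal_mul (by linarith)]
      refine ENNReal.ofReal_le_ofReal ?_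
      rw [← mul_div_assoc, div_le_iff₀ (by positivity)]
      nlinarith
    have b2 : volume (G ∩ Ioo (m - 2 * r) (m + 2 * r)) ≤ ENNReal.ofReal (2 * r) := by
      have := (out e _ _ he (hball (2 * r) (by linarith))).1
      rw [show m + 2 * r - (m - 2 * r) = 2 * (2 * r) by ring, ENNReal.ofReal_mul (by norm_num),
        ENNReal.ofReal_ofNat] at this
      exact (ENNReal.mul_le_mul_iff_right (by simp) (by simp)).1 this
    obtain ⟨z, hz, z1, z2⟩ : ∃ z ∈ Ioo (m - 2 * r) (m + 2 * r), T g z ≤ ENNReal.ofReal s ∧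
        T (cut f q) z ≤ ENNReal.ofReal (Λ * s) := by
      by_contra hn
      have : Ioo (m - 2 * r) (m + 2 * r) ⊆ (G ∩ Ioo (m - 2 * r) (m + 2 * r)) ∪
          {x | ENNReal.ofReal (Λ * s) < T (cut f q) x} := by
        intro z hz
        by_contra h2
        refine hn ⟨z, hz, not_lt.1 fun h3 => h2 (Or.inl ⟨h3, hz⟩), not_lt.1 fun h3 => h2 (Or.inr h3)⟩
      have h3 := (measure_mono this).trans ((measure_union_le _ _).trans (add_le_add b2 b1))
      rw [Real.volume_Ioo, ← ENNReal.ofReal_add (by positivity) hr0.le,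
        ENNReal.ofReal_le_ofReal_iff (by positivity)] at h3
      linarith
    have van : ∀ y, |y - m| < 3 * r → (g - cut f q) y = 0 := by
      intro y hy
      rw [abs_lt] at hy
      have : y ∈ tri q := ⟨by linarith [hy.1], by linarith [hy.2]⟩
      simp [hg, cut, this, hts this]
    have nle : ∀ y, ‖(g - cut f q) y‖ ≤ ‖g y‖ := by
      intro y
      by_cases hy : y ∈ tri q
      · simp [hg, cut, hy, hts hy]
      · simp [cut, hy]
    have tl := tail (G := fun y => ‖(g - cut f q) y‖ₑ) (ig.sub i1q).aestronglyMeasurable.enorm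
      (m := m) (κ := 3 / 2 * s) hr0 (by positivity) (fun y hy => by simp only [van y hy, enorm_zero])
      fun ρ hρ => by
        refine le_trans (lintegral_mono fun y => ?_) ((int_le_of_Phi (g := fun y => ‖g y‖)
          (fun _ => norm_nonneg _) hs0 _).trans ?_)
        · rw [← ofReal_norm]; exact ENNReal.ofReal_le_ofReal (nle y)
        · refine (mul_le_mul_right (out e _ _ he (hball ρ (by linarith))).2 _).trans (le_of_eq ?_)
          rw [← ENNReal.ofReal_mul (by positivity)]; congr 1; ring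
    have f1 := hT.far _ m r x z (ig.sub i1q) hr0 van
      (abs_lt.2 ⟨by linarith [hx.1], by linarith [hx.2]⟩)
      (abs_lt.2 ⟨by linarith [hz.1], by linarith [hz.2]⟩)
    have f2 := (hT.sub _ _ z ig i1q).trans (add_le_add z1 z2)
    have f3 := hT.add _ _ x (ig.sub i1q) i1q
    rw [sub_add_cancel] at f3
    refine f3.trans (add_le_add_left (f1.trans ((add_le_add (mul_le_mul_right f2 _)
      (mul_le_mul_right tl _)).trans (le_of_eq ?_))) _)
    rw [← ENNReal.ofReal_add hs0.le (by positivity), ← ENNReal.ofReal_ofNat 2,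
      ← ENNReal.ofReal_ofNat 6, ← ENNReal.ofReal_mul (by norm_num),
      ← ENNReal.ofReal_mul (by norm_num), ← ENNReal.ofReal_add (by positivity) (by positivity)]
    congr 1; ring

theorem int_le_L (hp : p.1 < p.2) : ∫⁻ x in tri p, ‖f x‖ₑ ≤
    ENNReal.ofReal (9 / 2 * (p.2 - p.1)) * L f p := by
  have hl := sub_pos.2 hp
  refine le_mul_lux (by simpa using hp) ENNReal.ofReal_ne_top fun c hc => ?_
  have := hc.1
  simp_rw [← ofReal_norm]
  refine (int_le_of_Phi (g := fun y => ‖f y‖) (fun _ => norm_nonneg _) hc.1 _).trans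
    ((mul_le_mul_right hc.2 _).trans (le_of_eq ?_))
  rw [← ENNReal.ofReal_mul (by positivity), ← ENNReal.ofReal_mul (by positivity)]
  congr 1; ring

/-- the conclusion of one step -/
def StepAt (T : (ℝ → ℂ) → ℝ → ℝ≥0∞) (K : ℝ≥0∞) (f : ℝ → ℂ) (p : ℝ × ℝ) (E : Set ℝ) : Prop :=
  IsOpen E ∧ E ⊆ Ioo p.1 p.2 ∧ volume E ≤ ENNReal.ofReal ((p.2 - p.1) / 2) ∧
    (∀ x ∈ Ioo p.1 p.2, x ∉ E → T (cut f p) x ≤ K * L f p) ∧
    ∀ q, IsComp E q → ∀ x ∈ Ioo q.1 q.2, T (cut f p) x ≤ K * L f p + T (cut f q) x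

theorem step (hT : Op T C) : ∃ K : ℝ, 0 < K ∧ ∀ f, Loc f → ∀ p : ℝ × ℝ, p.1 < p.2 →
    ∃ E, StepAt T (ENNReal.ofReal K) f p E := by
  have hC := hT.one
  refine ⟨(2 * (90 * C) + 26) * (90 * C * 2), by positivity, fun f hf p hp => ?_⟩
  have emp : (∀ x, T (cut f p) x ≤
      ENNReal.ofReal ((2 * (90 * C) + 26) * (90 * C * 2)) * L f p) →
      ∃ E, StepAt T (ENNReal.ofReal ((2 * (90 * C) + 26) * (90 * C * 2))) f p E := fun h =>
    ⟨∅, isOpen_empty, empty_subset _, by simp, fun x _ _ => h x, fun q _ x _ => le_add_right (h x)⟩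
  rcases eq_or_ne (L f p) ∞ with h1 | h1
  · refine emp fun x => ?_
    rw [h1, ENNReal.mul_top (by rw [Ne, ENNReal.ofReal_eq_zero, not_le]; positivity)]
    exact le_top
  rcases eq_or_ne (L f p) 0 with h0 | h0
  · refine emp fun x => ?_
    have h2 := int_le_L (f := f) hp
    have hi : IntegrableOn f (tri p) := hf _ _
    rw [h0, mul_zero, nonpos_iff_eq_zero,
      lintegral_eq_zero_iff' hi.aestronglyMeasurable.enorm] at h2
    rw [hT.zero _ x ?_]
    · exact zero_le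
    · filter_upwards [(ae_restrict_iff' (s := tri p) measurableSet_Ioo).1 h2] with y hy
      by_cases h : y ∈ tri p
      · simpa [cut, h] using hy h
      · simp [cut, h]
  have hpos : 0 < (L f p).toReal := ENNReal.toReal_pos h0 h1
  have hA : Adm 1 (fun x => ‖f x‖) (2 * p.1 - p.2) (2 * p.2 - p.1) (2 * (L f p).toReal) := by
    refine adm_of_lt zero_le_one (fun _ => norm_nonneg _) ?_
    change L f p < _
    conv_lhs => rw [← ENNReal.ofReal_toReal h1]
    exact (ENNReal.ofReal_lt_ofReal_iff (by positivity)).2 (by linarith)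
  obtain ⟨E, e1, e2, e3, e4, e5⟩ := step0 hT hf hp hA
  have e : ENNReal.ofReal ((2 * (90 * C) + 26) * (90 * C * (2 * (L f p).toReal))) =
      ENNReal.ofReal ((2 * (90 * C) + 26) * (90 * C * 2)) * L f p := by
    conv_rhs => rw [← ENNReal.ofReal_toReal h1, ← ENNReal.ofReal_mul (by positivity)]
    congr 1; ring
  rw [e] at e4 e5
  exact ⟨E, e1, e2, e3, e4, e5⟩

end Vale.Agent.N091W
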