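import Vale.Agent.N091W.Step

/-!
# The tree of stopping intervals
-/

open MeasureTheory Set Real Function
open scoped ENNReal

namespace Vale.Agent.N091W

/-- the generations `U n` of stopping intervals (the components of `U n`) dominate `G` -/
structure Tree (G : ℝ → ℝ≥0∞) (K : ℝ≥0∞) (f : ℝ → ℂ) (R : ℝ × ℝ) (U : ℕ → Set ℝ) : Prop where
  lt : R.1 < R.2
  zero : U 0 = Ioo R.1 R.2
  opn : ∀ n, IsOpen (U n)
  anti : ∀ n, U (n + 1) ⊆ U n
  half : ∀ n q, IsComp (U n) q → volume (U (n + 1) ∩ Ioo q.1 q.2) ≤ ENNReal.ofReal ((q.2 - q.1) / 2)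
  dom : ∀ n x (Q : ℕ → ℝ × ℝ), (∀ k ≤ n, IsComp (U k) (Q k) ∧ x ∈ Ioo (Q k).1 (Q k).2) →
    x ∉ U (n + 1) → G x ≤ K * ∑ k ∈ Finset.range (n + 1), L f (Q k)

variable {T : (ℝ → ℂ) → ℝ → ℝ≥0∞} {C : ℝ} {f : ℝ → ℂ} {R : ℝ × ℝ} {G : ℝ → ℝ≥0∞} {K : ℝ≥0∞}
  {U : ℕ → Set ℝ}

theorem comp_self (h : R.1 < R.2) : IsComp (Ioo R.1 R.2) R :=
  ⟨h, Subset.rfl, fun h => lt_irrefl _ h.1, fun h => lt_irrefl _ h.2⟩

/-- the generations -/
def gen (E : ℝ × ℝ → Set ℝ) (R : ℝ × ℝ) : ℕ → Set ℝ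
  | 0 => Ioo R.1 R.2
  | n + 1 => ⋃ p ∈ {p | IsComp (gen E R n) p}, E p

theorem tree (hT : Op T C) : ∃ K : ℝ, 0 < K ∧ ∀ f, Loc f → ∀ R : ℝ × ℝ, R.1 < R.2 →
    ∃ U, Tree (T (cut f R)) (ENNReal.ofReal K) f R U := by
  obtain ⟨K, hK, h⟩ := step hT
  refine ⟨K, hK, fun f hf R hR => ?_⟩
  choose! E hE using h f hf
  have anti : ∀ n, gen E R (n + 1) ⊆ gen E R n := fun n =>
    iUnion₂_subset fun p hp => (hE p hp.1).2.1.trans hp.2.1
  have int : ∀ n q, IsComp (gen E R n) q → gen E R (n + 1) ∩ Ioo q.1 q.2 = E q := by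
    intro n q hq
    refine Subset.antisymm (fun x hx => ?_) fun x hx =>
      ⟨mem_iUnion₂.2 ⟨q, hq, hx⟩, (hE q hq.1).2.1 hx⟩
    obtain ⟨p, hp, hx'⟩ := mem_iUnion₂.1 hx.1
    rwa [← IsComp.eq hp hq ((hE p hp.1).2.1 hx') hx.2]
  refine ⟨gen E R, hR, rfl, fun n => ?_, anti, fun n q hq => ?_, fun n x Q hQ hx => ?_⟩
  · cases n with
    | zero => exact isOpen_Ioo
    | succ n => exact isOpen_biUnion fun p hp => (hE p hp.1).1
  · rw [int n q hq]; exact (hE q hq.1).2.2.1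
  · have key : ∀ m ≤ n, T (cut f R) x ≤
        ENNReal.ofReal K * ∑ k ∈ Finset.range m, L f (Q k) + T (cut f (Q m)) x := by
      intro m hm
      induction m with
      | zero =>
        have h0 := hQ 0 hm
        rw [IsComp.eq h0.1 (comp_self hR) h0.2 (h0.1.2.1 h0.2)]
        exact le_add_self
      | succ m ih =>
        have h0 := hQ m (by omega)
        have h1 := hQ (m + 1) hm
        have h2 := sub_of_meet h0.1.2.2.1 h0.1.2.2.2 (h1.1.2.1.trans (anti m)) h1.2 h0.2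
        have h3 : IsComp (E (Q m)) (Q (m + 1)) := by
          rw [← int m _ h0.1]
          exact ⟨h1.1.1, subset_inter h1.1.2.1 (Ioo_subset_Ioo h2.1 h2.2),
            fun h => h1.1.2.2.1 h.1, fun h => h1.1.2.2.2 h.1⟩
        refine (ih (by omega)).trans ?_
        rw [Finset.sum_range_succ, mul_add, add_assoc]
        exact add_le_add_right ((hE _ h0.1.1).2.2.2.2 _ h3 x h1.2) _
    have h0 := hQ n le_rfl
    refine (key n le_rfl).trans ?_
    rw [Finset.sum_range_succ, mul_add]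
    refine add_le_add_right ((hE _ h0.1.1).2.2.2.1 x h0.2 fun h => hx ?_) _
    rw [← int n _ h0.1] at h
    exact h.1

namespace Tree

theorem anti' (h : Tree G K f R U) : Antitone U := antitone_nat_of_succ_le h.anti

theorem sub (h : Tree G K f R U) (n : ℕ) : U n ⊆ Ioo R.1 R.2 := h.zero ▸ h.anti' (Nat.zero_le n)

theorem decay (h : Tree G K f R U) (ν : Measure ℝ) (θ : ℝ≥0∞) (k : ℕ)
    (H : ∀ n q, IsComp (U n) q → ν (U (n + k) ∩ Ioo q.1 q.2) ≤ θ * ν (Ioo q.1 q.2)) (j n : ℕ)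
    {q : ℝ × ℝ} (hq : IsComp (U n) q) :
    ν (U (n + j * k) ∩ Ioo q.1 q.2) ≤ θ ^ j * ν (Ioo q.1 q.2) := by
  induction j with
  | zero => simpa using measure_mono inter_subset_right
  | succ j ih =>
    have hs : U (n + j * k) ⊆ U n := h.anti' (Nat.le_add_right _ _)
    have := comp_sum (h.opn (n + j * k)) (h.sub _) (h.anti' (Nat.le_add_right _ k)) ν θ
      (H (n + j * k)) (fun h => hq.2.2.1 (hs h)) fun h => hq.2.2.2 (hs h)
    rw [show n + (j + 1) * k = n + j * k + k by ring, pow_succ', mul_assoc]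
    exact this.trans (mul_le_mul_right ih _)

theorem vol (h : Tree G K f R U) (j n : ℕ) {q : ℝ × ℝ} (hq : IsComp (U n) q) :
    volume (U (n + j) ∩ Ioo q.1 q.2) ≤ ENNReal.ofReal ((1 / 2) ^ j) * volume (Ioo q.1 q.2) := by
  have := h.decay volume (ENNReal.ofReal (1 / 2)) 1 (fun n q hq => (h.half n q hq).trans ?_) j n hq
  · rwa [mul_one, ← ENNReal.ofReal_pow (by norm_num)] at this
  · rw [Real.volume_Ioo, ← ENNReal.ofReal_mul (by norm_num)]
    exact le_of_eq (by congr 1; ring)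

theorem vol0 (h : Tree G K f R U) (j : ℕ) :
    volume (U j) ≤ ENNReal.ofReal ((1 / 2) ^ j * (R.2 - R.1)) := by
  have := h.vol j 0 (q := R) (h.zero ▸ comp_self h.lt)
  rwa [zero_add, inter_eq_left.2 (h.sub j), Real.volume_Ioo,
    ← ENNReal.ofReal_mul (by positivity)] at this

theorem ae_out (h : Tree G K f R U) : ∀ᵐ x, ∃ n, x ∉ U n := by
  rw [ae_iff]
  simp only [not_exists, not_not]
  refine le_antisymm (ge_of_tendsto' (x := Filter.atTop) (f := fun j : ℕ =>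
    ENNReal.ofReal ((1 / 2) ^ j * (R.2 - R.1))) ?_ fun j =>
      le_trans (measure_mono fun x hx => hx j) (h.vol0 j)) zero_le
  rw [← ENNReal.ofReal_zero, ← zero_mul (R.2 - R.1)]
  exact ENNReal.tendsto_ofReal ((tendsto_pow_atTop_nhds_zero_of_lt_one (by norm_num)
    (by norm_num)).mul_const _)

theorem chain (h : Tree G K f R U) {x : ℝ} (h0 : x ∈ Ioo R.1 R.2) (h1 : ∃ n, x ∉ U n) :
    ∃ (n : ℕ) (Q : ℕ → ℝ × ℝ), x ∈ U n ∧ x ∉ U (n + 1) ∧
      (∀ k ≤ n, IsComp (U k) (Q k) ∧ x ∈ Ioo (Q k).1 (Q k).2) ∧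
      G x ≤ K * ∑ k ∈ Finset.range (n + 1), L f (Q k) := by
  classical
  have hn := Nat.find_spec h1
  have hpos : Nat.find h1 ≠ 0 := fun e => hn (by rw [e, h.zero]; exact h0)
  obtain ⟨n, e⟩ := Nat.exists_eq_succ_of_ne_zero hpos
  have hx : x ∈ U n := not_not.1 (Nat.find_min h1 (by omega))
  rw [e] at hn
  have : ∀ k, k ≤ n → ∃ q, IsComp (U k) q ∧ x ∈ Ioo q.1 q.2 := fun k hk =>
    exists_comp (h.opn k) (h.sub k) (h.anti' hk hx)
  choose! Q hQ using this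
  exact ⟨n, Q, hx, hn, hQ, h.dom n x Q hQ hn⟩

end Tree

/-- the first stopping intervals with average above `τ` -/
def First (f : ℝ → ℂ) (U : ℕ → Set ℝ) (τ : ℝ) : Set (ℕ × ℝ × ℝ) :=
  {i | IsComp (U i.1) i.2 ∧ ENNReal.ofReal τ < L f i.2 ∧ ∀ g < i.1, ∀ q, IsComp (U g) q →
    Ioo i.2.1 i.2.2 ⊆ Ioo q.1 q.2 → L f q ≤ ENNReal.ofReal τ}

/-- the points `n` generations below them -/
def Fam (f : ℝ → ℂ) (U : ℕ → Set ℝ) (τ : ℝ) (n : ℕ) : Set ℝ :=
  ⋃ i ∈ First f U τ, U (i.1 + n) ∩ Ioo i.2.1 i.2.2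

theorem dyad (l c : ℕ → ℝ≥0∞) (h0 : ∀ m, l m ≤ c 0) (h : ∀ j m, 2 ^ j ≤ m → l m ≤ c (j + 1))
    (J : ℕ) : ∑ m ∈ Finset.range (2 ^ J), l m ≤
      c 0 + ∑ j ∈ Finset.range J, 2 ^ j * c (j + 1) := by
  induction J with
  | zero => simpa using h0 0
  | succ J ih =>
    rw [pow_succ, mul_two, Finset.sum_range_add, Finset.sum_range_succ, ← add_assoc]
    refine add_le_add ih ((Finset.sum_le_card_nsmul _ _ (c (J + 1)) fun m _ =>
      h J _ (Nat.le_add_right _ _)).trans ?_)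
    simp

namespace Tree

theorem first_disj (h : Tree G K f R U) (τ : ℝ) :
    (First f U τ).PairwiseDisjoint fun i => Ioo i.2.1 i.2.2 := by
  have key : ∀ i ∈ First f U τ, ∀ j ∈ First f U τ, i.1 < j.1 → ∀ x, x ∈ Ioo i.2.1 i.2.2 →
      x ∈ Ioo j.2.1 j.2.2 → False := by
    intro i hi j hj hij x h1 h2
    have := sub_of_meet hi.1.2.2.1 hi.1.2.2.2 (hj.1.2.1.trans (h.anti' hij.le)) h2 h1
    exact absurd (hj.2.2 _ hij _ hi.1 (Ioo_subset_Ioo this.1 this.2)) (not_le.2 hi.2.1)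
  intro i hi j hj hne
  refine disjoint_left.2 fun x h1 h2 => ?_
  rcases lt_trichotomy i.1 j.1 with e | e | e
  · exact key i hi j hj e x h1 h2
  · exact hne (Prod.ext e (IsComp.eq hi.1 (e ▸ hj.1) h1 h2))
  · exact key j hj i hi e x h2 h1

theorem mem_fam (h : Tree G K f R U) {τ x : ℝ} {g n : ℕ} {q : ℝ × ℝ} (hq : IsComp (U g) q)
    (hx : x ∈ Ioo q.1 q.2) (hn : x ∈ U (g + n)) (hτ : ENNReal.ofReal τ < L f q) :
    x ∈ Fam f U τ n := by
  classical
  have ex : ∃ g, ∃ q, IsComp (U g) q ∧ x ∈ Ioo q.1 q.2 ∧ ENNReal.ofReal τ < L f q :=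
    ⟨g, q, hq, hx, hτ⟩
  obtain ⟨p, h1, h2, h3⟩ := Nat.find_spec ex
  have hle : Nat.find ex ≤ g := Nat.find_min' ex ⟨q, hq, hx, hτ⟩
  refine mem_iUnion₂.2 ⟨(Nat.find ex, p), ⟨h1, h3, fun g' hg' q' hq' hs => ?_⟩,
    h.anti' (Nat.add_le_add_right hle n) hn, h2⟩
  exact not_lt.1 fun hlt => Nat.find_min ex hg' ⟨q', hq', hs h2, hlt⟩

theorem levels (h : Tree G K f R U) {B lam x : ℝ} (hB : 2 < B) (hl : 0 < lam)
    (h0 : x ∈ Ioo R.1 R.2) (h1 : ∃ n, x ∉ U n)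
    (hG : K * ENNReal.ofReal (lam * (1 + 1 / (B - 2))) < G x) :
    x ∈ Fam f U lam 0 ∨ ∃ j : ℕ, x ∈ Fam f U (lam / B ^ (j + 1)) (2 ^ j) := by
  obtain ⟨n, Q, hx, -, hQ, hd⟩ := h.chain h0 h1
  by_contra hn
  rw [not_or, not_exists] at hn
  refine absurd (hd.trans (mul_le_mul_right ?_ _)) (not_le.2 hG)
  have hB0 : 0 < B := by linarith
  have key := dyad (fun m => if m ≤ n then L f (Q (n - m)) else 0)
    (fun j => ENNReal.ofReal (lam / B ^ j)) (fun m => ?_) (fun j m hm => ?_) (n + 1)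
  · rw [← Finset.sum_range_reflect]
    refine le_trans (le_trans (le_of_eq (Finset.sum_congr rfl fun m hm => ?_))
      (Finset.sum_le_sum_of_subset (Finset.range_mono (Nat.lt_two_pow_self (n := n + 1)).le)))
      (key.trans ?_)
    · rw [if_pos (by simpa [Nat.lt_succ_iff] using hm)]; rfl
    · have e : ∀ j : ℕ, (2 : ℝ≥0∞) ^ j * ENNReal.ofReal (lam / B ^ (j + 1)) =
          ENNReal.ofReal (lam / B * (2 / B) ^ j) := by
        intro j
        rw [← ENNReal.ofReal_ofNat 2, ← ENNReal.ofReal_pow (by norm_num),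
          ← ENNReal.ofReal_mul (by positivity), div_pow]
        congr 1; field_simp; ring
      simp only [e]
      rw [← ENNReal.ofReal_sum_of_nonneg fun j _ => by positivity,
        ← ENNReal.ofReal_add (by positivity) (by positivity), ← Finset.mul_sum]
      refine ENNReal.ofReal_le_ofReal ?_
      have hlt : 2 / B < 1 := by rwa [div_lt_one hB0]
      have := (summable_geometric_of_lt_one (by positivity) hlt).sum_le_tsum
        (Finset.range (n + 1)) fun j _ => by positivity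
      rw [tsum_geometric_of_lt_one (by positivity) hlt] at this
      have h2 : 0 < B - 2 := by linarith
      have e2 : lam / B * (1 - 2 / B)⁻¹ = lam * (1 / (B - 2)) := by field_simp
      have h3 := mul_le_mul_of_nonneg_left this (show 0 ≤ lam / B by positivity)
      rw [pow_zero, div_one]
      linarith
  · split_ifs with hm
    · have hq := hQ (n - m) (Nat.sub_le _ _)
      rw [pow_zero, div_one]
      exact not_lt.1 fun hlt => hn.1 (h.mem_fam hq.1 hq.2 (hq.1.2.1 hq.2) hlt)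
    · exact zero_le
  · split_ifs with hm'
    · have hq := hQ (n - m) (Nat.sub_le _ _)
      exact not_lt.1 fun hlt => hn.2 j (h.mem_fam hq.1 hq.2 (h.anti' (by omega) hx) hlt)
    · exact zero_le

theorem fam_sub (h : Tree G K f R U) (τ : ℝ) (n : ℕ) : Fam f U τ n ⊆
    {x | x ∈ Ioo R.1 R.2 ∧ ENNReal.ofReal τ < Mlog 1 (fun x => ‖f x‖) x} := by
  intro x hx
  obtain ⟨i, hi, h1, h2⟩ := mem_iUnion₂.1 hx
  exact ⟨h.sub _ h1, hi.2.1.trans_le (lux_le_Mlog (sub_tri h2))⟩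

theorem fam_decay (h : Tree G K f R U) (ν : Measure ℝ) (θ : ℝ≥0∞) (τ : ℝ) (n : ℕ)
    (H : ∀ g q, IsComp (U g) q → ν (U (g + n) ∩ Ioo q.1 q.2) ≤ θ * ν (Ioo q.1 q.2)) :
    ν (Fam f U τ n) ≤ θ * ν (Fam f U τ 0) := by
  refine (sum_disj (First f U τ) (fun i => i.2.1) (fun i => i.2.2) _ ν ν θ (fun i hi => hi.1.1)
    (h.first_disj τ) fun i hi => H _ _ hi.1).trans ?_
  gcongr
  exact iUnion₂_mono fun i hi => subset_inter hi.1.2.1 Subset.rfl

theorem fam_weight (h : Tree G K f R U) {γ s τ : ℝ} (hγ : 0 ≤ γ) (hs : 0 ≤ s) (hτ : 0 < τ)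
    (w : ℝ → ℝ) (n : ℕ) : ∫⁻ x in Fam f U τ n, ENNReal.ofReal (w x) ≤
      5 * ENNReal.ofReal (psi γ s ((1 / 2) ^ n)) *
        ∫⁻ x in tri R, Phi 1 (‖f x‖ / τ) * Mlog γ w x := by
  have hin : ∀ i ∈ First f U τ, R.1 ≤ i.2.1 ∧ i.2.2 ≤ R.2 := fun i hi =>
    (Ioo_subset_Ioo_iff hi.1.1).1 (hi.1.2.1.trans (h.sub _))
  rw [← withDensity_apply']
  refine cover (First f U τ) (fun i => 2 * i.2.1 - i.2.2) (fun i => 2 * i.2.2 - i.2.1) _ _ _ _ _
    ENNReal.ofReal_ne_top _ (3 * (R.2 - R.1)) (fun i hi => by linarith [hi.1.1])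
    (fun i hi => by linarith [hin i hi]) (fun i hi => tri_mono (hin i hi).1 (hin i hi).2)
    (fun i hi => (lt_of_lt_lux hτ hi.2.1).le) fun a b y hy => ?_
  rw [withDensity_apply']
  have hsub : ∀ i ∈ {i ∈ First f U τ | Ioo (2 * i.2.1 - i.2.2) (2 * i.2.2 - i.2.1) ⊆ Ioo a b},
      Ioo i.2.1 i.2.2 ⊆ Ioo a b := fun i hi x hx => hi.2 (sub_tri hx)
  refine (holder hγ hs (θ := (1 / 2) ^ n) (by positivity) (hy.1.trans hy.2)
    (iUnion₂_subset fun i hi => inter_subset_right.trans (hsub i hi)) ?_).trans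
    (mul_le_mul_right (lux_le_Mlog hy) _)
  refine (sum_disj _ (fun i : ℕ × ℝ × ℝ => i.2.1) (fun i => i.2.2) _ volume volume _
    (fun i hi => hi.1.1.1) ((h.first_disj τ).subset fun i hi => hi.1)
    fun i hi => h.vol n _ hi.1.1).trans ?_
  rw [ENNReal.ofReal_mul (by positivity), ← Real.volume_Ioo]
  gcongr
  exact iUnion₂_subset hsub

end Tree

end Vale.Agent.N091W
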