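import Vale.Agent.N091W.Tree

/-!
# Consequences of the domination by a tree: sparse form, exponential decay, weights
-/

open MeasureTheory Set Real Function
open scoped ENNReal

namespace Vale.Agent.N091W

variable {f : ℝ → ℂ} {R : ℝ × ℝ} {G : ℝ → ℝ≥0∞} {K : ℝ} {U : ℕ → Set ℝ}

theorem exp_le {κ γ : ℝ} (hκ : 0 < κ) (hγ : 0 < γ) (j : ℕ) :
    Real.exp (-(κ * 2 ^ j)) ≤ (κ / γ) ^ (-γ) * ((2 : ℝ) ^ (-γ)) ^ j := by
  have h1 : κ / γ * 2 ^ j ≤ Real.exp (κ / γ * 2 ^ j) := by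
    linarith [Real.add_one_le_exp (κ / γ * 2 ^ j)]
  have h2 := Real.rpow_le_rpow_of_nonpos (by positivity) h1 (neg_nonpos.2 hγ.le)
  rw [← Real.exp_mul, Real.mul_rpow (by positivity) (by positivity), ← Real.rpow_natCast,
    ← Real.rpow_mul two_pos.le, mul_comm (j : ℝ), Real.rpow_mul two_pos.le,
    Real.rpow_natCast, Real.rpow_natCast] at h2
  refine le_trans (le_of_eq ?_) h2
  congr 1; field_simp

theorem cake (ν : Measure ℝ) [SFinite ν] {H : ℝ → ℝ≥0∞} (hH : Measurable H) :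
    ∫⁻ x, H x ∂ν = ∫⁻ t in Ioi (0 : ℝ), ν {x | ENNReal.ofReal t < H x} := by
  have hs : MeasurableSet {z : ℝ × ℝ | ENNReal.ofReal z.2 < H z.1} :=
    measurableSet_lt (by fun_prop) (hH.comp measurable_fst)
  have h1 := Measure.prod_apply (μ := ν) (ν := volume.restrict (Ioi (0 : ℝ))) hs
  have h2 := Measure.prod_apply_symm (μ := ν) (ν := volume.restrict (Ioi (0 : ℝ))) hs
  refine Eq.trans (lintegral_congr fun x => ?_) (h1.symm.trans h2)
  rw [Measure.restrict_apply' measurableSet_Ioi]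
  rcases eq_or_ne (H x) ∞ with h | h
  · have : Prod.mk x ⁻¹' {z : ℝ × ℝ | ENNReal.ofReal z.2 < H z.1} = univ := by
      ext t; simp [h]
    rw [this, univ_inter, h, Real.volume_Ioi]
  · have : Prod.mk x ⁻¹' {z : ℝ × ℝ | ENNReal.ofReal z.2 < H z.1} ∩ Ioi 0 = Ioo 0 (H x).toReal := by
      ext t
      simp only [mem_inter_iff, mem_preimage, mem_ofPred_eq, mem_Ioi, mem_Ioo]
      constructor
      · rintro ⟨a, b⟩; exact ⟨b, (ENNReal.ofReal_lt_iff_lt_toReal b.le h).1 a⟩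
      · rintro ⟨b, a⟩; exact ⟨(ENNReal.ofReal_lt_iff_lt_toReal b.le h).2 a, b⟩
    rw [this, Real.volume_Ioo, sub_zero, ENNReal.ofReal_toReal h]

namespace Tree

theorem sparse {K : ℝ≥0∞} (h : Tree G K f R U) :
    ∃ (ι : Type) (a b : ι → ℝ) (E : ι → Set ℝ), Pairwise (Function.onFun Disjoint E) ∧
      (∀ i, E i ⊆ Ioo R.1 R.2 ∧ a i < b i ∧ b i - a i ≤ 3 * (R.2 - R.1) ∧ MeasurableSet (E i) ∧
        E i ⊆ Ioo (a i) (b i) ∧ ENNReal.ofReal ((b i - a i) / 6) ≤ volume (E i)) ∧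
      ∀ᵐ x, x ∈ Ioo R.1 R.2 → G x ≤ K * ∑' i, (Ioo (a i) (b i)).indicator
        (fun _ => lux 1 (fun y => ‖f y‖) (a i) (b i)) x := by
  refine ⟨{i : ℕ × ℝ × ℝ // IsComp (U i.1) i.2}, fun i => 2 * i.1.2.1 - i.1.2.2,
    fun i => 2 * i.1.2.2 - i.1.2.1, fun i => Ioo i.1.2.1 i.1.2.2 \ U (i.1.1 + 1),
    fun i j hne => disjoint_left.2 fun x h1 h2 => ?_, fun i => ⟨?_, by linarith [i.2.1], ?_,
      measurableSet_Ioo.diff (h.opn _).measurableSet, fun x hx => sub_tri hx.1, ?_⟩, ?_⟩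
  · rcases lt_trichotomy i.1.1 j.1.1 with e | e | e
    · exact h1.2 (h.anti' e (j.2.2.1 h2.1))
    · exact hne (Subtype.ext (Prod.ext e (IsComp.eq i.2 (e ▸ j.2) h1.1 h2.1)))
    · exact h2.2 (h.anti' e (i.2.2.1 h1.1))
  · exact sdiff_subset.trans (i.2.2.1.trans (h.sub _))
  · have := (Ioo_subset_Ioo_iff i.2.1).1 (i.2.2.1.trans (h.sub _))
    linarith [this.1, this.2]
  · have h1 := measure_inter_add_sdiff (μ := volume) (Ioo i.1.2.1 i.1.2.2)
      (h.opn (i.1.1 + 1)).measurableSet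
    have h2 := h.half _ _ i.2
    have h3 := sub_pos.2 i.2.1
    rw [inter_comm] at h2
    have h4 := h1.ge.trans (add_le_add_left h2 _)
    rw [Real.volume_Ioo, show i.1.2.2 - i.1.2.1 = (i.1.2.2 - i.1.2.1) / 2 + (i.1.2.2 - i.1.2.1) / 2
      by ring, ENNReal.ofReal_add (by positivity) (by positivity), add_halves,
      ENNReal.add_le_add_iff_left ENNReal.ofReal_ne_top] at h4
    exact le_trans (le_of_eq (by congr 1; ring)) h4
  · filter_upwards [h.ae_out] with x h1 h0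
    obtain ⟨n, Q, -, -, hQ, hd⟩ := h.chain h0 h1
    refine hd.trans (mul_le_mul_right ?_ _)
    rw [← Fin.sum_univ_eq_sum_range (fun k => L f (Q k)), ← tsum_fintype (L := .unconditional _)]
    refine le_trans (le_of_eq (tsum_congr fun k => ?_)) (ENNReal.tsum_comp_le_tsum_of_injective
      (f := fun k : Fin (n + 1) => (⟨(k, Q k), (hQ k (Nat.lt_succ_iff.1 k.2)).1⟩ :
        {i : ℕ × ℝ × ℝ // IsComp (U i.1) i.2}))
      (fun k l e => Fin.ext (congrArg (fun i => i.1.1) e)) _)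
    exact (indicator_of_mem (sub_tri (hQ k (Nat.lt_succ_iff.1 k.2)).2) fun _ => L f (Q k)).symm

theorem expo (h : Tree G (ENNReal.ofReal K) f R U) (hK : 0 < K) {t : ℝ} (ht : 0 ≤ t) :
    volume {x | x ∈ Ioo R.1 R.2 ∧ ENNReal.ofReal t * Mlog 1 (fun y => ‖f y‖) x < G x} ≤
      ENNReal.ofReal (2 * Real.exp (-(Real.log 2 / K * t)) * (R.2 - R.1)) := by
  have hl := sub_pos.2 h.lt
  refine le_trans (measure_mono_ae (t := U ⌊t / K⌋₊) ?_) ((h.vol0 _).trans ?_)
  · filter_upwards [h.ae_out] with x h1 hx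
    obtain ⟨n, Q, hn, -, hQ, hd⟩ := h.chain hx.1 h1
    refine h.anti' (not_lt.1 fun hlt => absurd (hd.trans ?_) (not_le.2 hx.2)) hn
    have h2 : ((n + 1 : ℕ) : ℝ) ≤ t / K :=
      le_trans (by exact_mod_cast hlt) (Nat.floor_le (by positivity))
    rw [le_div_iff₀ hK] at h2
    refine (mul_le_mul_right (Finset.sum_le_card_nsmul _ _ (Mlog 1 (fun y => ‖f y‖) x) fun k hk =>
      lux_le_Mlog (sub_tri (hQ k (Nat.lt_succ_iff.1 (Finset.mem_range.1 hk))).2)) _).trans ?_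
    rw [Finset.card_range, nsmul_eq_mul, ← mul_assoc, ← ENNReal.ofReal_natCast,
      ← ENNReal.ofReal_mul hK.le]
    exact mul_le_mul_left (ENNReal.ofReal_le_ofReal (by linarith)) _
  · refine ENNReal.ofReal_le_ofReal (mul_le_mul_of_nonneg_right ?_ hl.le)
    have h1 := Nat.lt_floor_add_one (t / K)
    have h2 : (1 / 2 : ℝ) ^ ⌊t / K⌋₊ = Real.exp (-(Real.log 2 * ⌊t / K⌋₊)) := by
      rw [Real.exp_neg, mul_comm, Real.exp_nat_mul, Real.exp_log two_pos, one_div, inv_pow]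
    have h3 : 0 < Real.log 2 := by linarith [log2_gt]
    rw [h2]
    conv_rhs => rw [← Real.exp_log two_pos, ← Real.exp_add, Real.log_exp]
    refine Real.exp_le_exp.2 ?_
    have : Real.log 2 / K * t = Real.log 2 * (t / K) := by ring
    nlinarith

theorem union_le (h : Tree G (ENNReal.ofReal K) f R U) (hK : 0 < K) (ν : Measure ℝ)
    (hν : ν ≪ volume) {B lam : ℝ} (hB : 2 < B) (hl : 0 < lam) :
    ν {x | x ∈ Ioo R.1 R.2 ∧ ENNReal.ofReal lam < G x} ≤
      ν (Fam f U (lam / (K * (1 + 1 / (B - 2)))) 0) +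
        ∑' j : ℕ, ν (Fam f U (lam / (K * (1 + 1 / (B - 2)) * B ^ (j + 1))) (2 ^ j)) := by
  have h2 : 0 < B - 2 := by linarith
  refine le_trans (measure_mono_ae ?_) ((measure_union_le _ _).trans
    (add_le_add_right (measure_iUnion_le _) _))
  filter_upwards [hν.ae_le h.ae_out] with x h1 hx
  have := h.levels (lam := lam / (K * (1 + 1 / (B - 2)))) hB (by positivity) hx.1 h1 (by
    rw [← ENNReal.ofReal_mul hK.le]
    refine lt_of_eq_of_lt ?_ hx.2
    congr 1; field_simp)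
  simp only [div_div] at this
  exact this.imp_right mem_iUnion.2

end Tree

theorem sumup {K D ρ : ℝ} (hK : 1 ≤ K) (hD : 0 ≤ D) (h0 : 0 < ρ) (h1 : ρ < 1 / 2) :
    ∃ C : ℝ, 0 < C ∧ ∀ (f : ℝ → ℂ) (R : ℝ × ℝ) (G : ℝ → ℝ≥0∞) (U : ℕ → Set ℝ) (ν : Measure ℝ)
      (v : ℝ → ℝ≥0∞) (W : Set ℝ), Tree G (ENNReal.ofReal K) f R U → ν ≪ volume →
      (∀ τ, 0 < τ → ν (Fam f U τ 0) ≤ ENNReal.ofReal D * ∫⁻ x in W, Phi 1 (‖f x‖ / τ) * v x) →
      (∀ τ, 0 < τ → ∀ j : ℕ, ν (Fam f U τ (2 ^ j)) ≤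
        ENNReal.ofReal (D * ρ ^ j) * ∫⁻ x in W, Phi 1 (‖f x‖ / τ) * v x) →
      ∀ lam, 0 < lam → ν {x | x ∈ Ioo R.1 R.2 ∧ ENNReal.ofReal lam < G x} ≤
        ENNReal.ofReal C * ∫⁻ x in W, Phi 1 (‖f x‖ / lam) * v x := by
  set B := (2 + 1 / ρ) / 2 with hBd
  have hρ2 : 2 < 1 / ρ := by rw [lt_div_iff₀ h0]; linarith
  have hB : 2 < B := by linarith
  have hB2 : 0 < B - 2 := by linarith
  have hBρ : B * ρ < 1 := by
    have : B < 1 / ρ := by linarith
    rwa [lt_div_iff₀ h0] at this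
  set c := K * (1 + 1 / (B - 2)) with hc
  have hc1 : 1 ≤ c := one_le_mul_of_one_le_of_one_le hK (le_add_of_nonneg_right (by positivity))
  have hcj : ∀ j : ℕ, 1 ≤ c * B ^ (j + 1) := fun j =>
    one_le_mul_of_one_le_of_one_le hc1 (one_le_pow₀ (by linarith))
  set a : ℕ → ℝ := fun j => D * ρ ^ j * (c * B ^ (j + 1) * (1 + 2 * Real.log (c * B ^ (j + 1))))
    with ha
  have ha0 : ∀ j, 0 ≤ a j := fun j => by
    have := Real.log_nonneg (hcj j); positivity
  have hs : Summable a := by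
    have hn : ‖B * ρ‖ < 1 := by rwa [Real.norm_of_nonneg (by positivity)]
    have s1 := (summable_geometric_of_norm_lt_one hn).mul_left
      (D * c * B * (1 + 2 * Real.log c + 2 * Real.log B))
    have s2 := (summable_pow_mul_geometric_of_norm_lt_one 1 hn).mul_left
      (D * c * B * (2 * Real.log B))
    refine (s1.add s2).congr fun j => ?_
    simp only [ha]
    rw [Real.log_mul (x := c) (by positivity) (by positivity), Real.log_pow, mul_pow]
    push_cast; ring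
  have hl0 := Real.log_nonneg hc1
  have ht0 : 0 ≤ ∑' j, a j := tsum_nonneg ha0
  refine ⟨1 + (D * (c * (1 + 2 * Real.log c)) + ∑' j, a j), by positivity,
    fun f R G U ν v W h hν H0 H lam hl => ?_⟩
  have sc : ∀ b : ℝ, 1 ≤ b → ∫⁻ x in W, Phi 1 (‖f x‖ / (lam / b)) * v x ≤
      ENNReal.ofReal (b * (1 + 2 * Real.log b)) * ∫⁻ x in W, Phi 1 (‖f x‖ / lam) * v x := by
    intro b hb
    rw [← lintegral_const_mul' _ _ ENNReal.ofReal_ne_top]
    refine lintegral_mono fun x => ?_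
    rw [← mul_assoc, show ‖f x‖ / (lam / b) = b * (‖f x‖ / lam) by field_simp]
    exact mul_le_mul_left (Phi_mul (by positivity) hb) _
  refine (h.union_le (by linarith) ν hν hB hl).trans ?_
  refine (add_le_add ((H0 _ (by positivity)).trans (mul_le_mul_right (sc c hc1) _))
    (ENNReal.tsum_le_tsum fun j => (H _ (by positivity) j).trans
      (mul_le_mul_right (sc _ (hcj j)) _))).trans ?_
  simp only [← mul_assoc _ _ (∫⁻ x in W, Phi 1 (‖f x‖ / lam) * v x)]
  rw [ENNReal.tsum_mul_right, ← add_mul]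
  refine mul_le_mul_left ?_ _
  rw [← ENNReal.ofReal_mul hD, tsum_congr fun j => (ENNReal.ofReal_mul (by positivity)).symm,
    ← ENNReal.ofReal_tsum_of_nonneg ha0 hs, ← ENNReal.ofReal_add (by positivity) ht0]
  exact ENNReal.ofReal_le_ofReal (by linarith)

/-- arbitrary weights -/
theorem any_weight {K γ : ℝ} (hK : 1 ≤ K) (hγ : 1 < γ) :
    ∃ C : ℝ, 0 < C ∧ ∀ (f : ℝ → ℂ) (R : ℝ × ℝ) (G : ℝ → ℝ≥0∞) (U : ℕ → Set ℝ) (w : ℝ → ℝ),
      Tree G (ENNReal.ofReal K) f R U → ∀ lam, 0 < lam →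
      ∫⁻ x in {x | x ∈ Ioo R.1 R.2 ∧ ENNReal.ofReal lam < G x}, ENNReal.ofReal (w x) ≤
        ENNReal.ofReal C * ∫⁻ x in tri R, Phi 1 (‖f x‖ / lam) * Mlog γ w x := by
  have hγ0 : 0 < γ := by linarith
  have k1 : 0 < Real.log (4 / 3) := Real.log_pos (by norm_num)
  have k2 : 0 < Real.log (3 / 2) := Real.log_pos (by norm_num)
  have p0 := psi_pos γ le_rfl (θ := (1 / 2) ^ 0) (by positivity)
  set D := psi γ 0 ((1 / 2) ^ 0) + ((Real.log (4 / 3) / γ) ^ (-γ) + Real.log (3 / 2) ^ (-γ)) with hD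
  have hρ : (2 : ℝ) ^ (-γ) < 1 / 2 := by
    rw [one_div, ← Real.rpow_neg_one]
    exact Real.rpow_lt_rpow_of_exponent_lt one_lt_two (by linarith)
  obtain ⟨C, hC, H⟩ := sumup (D := 5 * D) (ρ := 2 ^ (-γ)) hK (by positivity) (by positivity) hρ
  refine ⟨C, hC, fun f R G U w h lam hl => ?_⟩
  rw [← withDensity_apply']
  refine H f R G U _ _ _ h (withDensity_absolutelyContinuous _ _) (fun τ hτ => ?_)
    (fun τ hτ j => ?_) lam hl
  · rw [withDensity_apply']
    refine (h.fam_weight hγ0.le le_rfl hτ w 0).trans (mul_le_mul_left ?_ _)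
    rw [ENNReal.ofReal_mul (by norm_num), ENNReal.ofReal_ofNat]
    exact mul_le_mul_right (ENNReal.ofReal_le_ofReal (le_add_of_nonneg_right (by positivity))) _
  · rw [withDensity_apply']
    refine (h.fam_weight (s := (3 / 2) ^ (2 ^ j)) hγ0.le (by positivity) hτ w _).trans
      (mul_le_mul_left ?_ _)
    rw [mul_assoc, ENNReal.ofReal_mul (by norm_num), ENNReal.ofReal_ofNat]
    refine mul_le_mul_right (ENNReal.ofReal_le_ofReal ?_) _
    have e1 : ((3 : ℝ) / 2) ^ (2 ^ j) * (1 / 2) ^ (2 ^ j) = Real.exp (-(Real.log (4 / 3) * 2 ^ j)) := by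
      rw [← mul_pow, Real.exp_neg, mul_comm (Real.log _), show (2 : ℝ) ^ j = ((2 ^ j : ℕ) : ℝ) by push_cast; rfl,
        Real.exp_nat_mul, Real.exp_log (by norm_num), ← inv_pow]
      norm_num
    have e2 : Real.log (2 + (3 / 2) ^ (2 ^ j)) ^ (-γ) ≤
        Real.log (3 / 2) ^ (-γ) * ((2 : ℝ) ^ (-γ)) ^ j := by
      have : Real.log (3 / 2) * 2 ^ j ≤ Real.log (2 + (3 / 2) ^ (2 ^ j)) := by
        refine le_trans (le_of_eq ?_) (Real.log_le_log (x := (3 / 2) ^ (2 ^ j)) (by positivity)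
          (by linarith))
        rw [Real.log_pow]; push_cast; ring
      refine (Real.rpow_le_rpow_of_nonpos (by positivity) this (by linarith)).trans (le_of_eq ?_)
      rw [Real.mul_rpow k2.le (by positivity), ← Real.rpow_natCast, ← Real.rpow_mul two_pos.le,
        mul_comm (j : ℝ), Real.rpow_mul two_pos.le, Real.rpow_natCast]
    have e3 := exp_le k1 hγ0 j
    have e4 : 0 ≤ psi γ 0 ((1 / 2) ^ 0) * ((2 : ℝ) ^ (-γ)) ^ j := by positivity
    rw [psi, e1, hD]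
    linarith

theorem ainf_decay {α β γ : ℝ} (hα : 0 < α) (hβ0 : 0 < β) (hβ : β < 1) (hγ : 0 < γ) :
    ∃ D : ℝ, 1 ≤ D ∧ ∀ (K : ℝ≥0∞) (f : ℝ → ℂ) (R : ℝ × ℝ) (G : ℝ → ℝ≥0∞) (U : ℕ → Set ℝ)
      (w : ℝ → ℝ), Tree G K f R U → Ainf α β w → ∀ (τ : ℝ) (j : ℕ),
      volume.withDensity (fun x => ENNReal.ofReal (w x)) (Fam f U τ (2 ^ j)) ≤
        ENNReal.ofReal (D * ((2 : ℝ) ^ (-γ)) ^ j) *
          volume.withDensity (fun x => ENNReal.ofReal (w x)) (Fam f U τ 0) := by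
  obtain ⟨k, hk⟩ := exists_pow_lt_of_lt_one hα (show (1 / 2 : ℝ) < 1 by norm_num)
  have hk1 : (1 / 2 : ℝ) ^ (k + 1) ≤ α := by
    rw [pow_succ]; nlinarith [pow_pos (show (0 : ℝ) < 1 / 2 by norm_num) k]
  have hlb : 0 < -Real.log β := neg_pos.2 (Real.log_neg hβ0 hβ)
  set κ := -Real.log β / (k + 1) with hκ
  have hκ0 : 0 < κ := by positivity
  refine ⟨1 + β⁻¹ * (κ / γ) ^ (-γ), le_add_of_nonneg_right (by positivity),
    fun K f R G U w h hw τ j => h.fam_decay _ _ τ _ fun g q hq => ?_⟩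
  have d := h.decay (volume.withDensity fun x => ENNReal.ofReal (w x)) (ENNReal.ofReal β) (k + 1)
    (fun n q hq => ?_) (2 ^ j / (k + 1)) g hq
  · refine le_trans (measure_mono (inter_subset_inter_left _ (h.anti' (Nat.add_le_add_left
      (Nat.div_mul_le_self _ _) _)))) (d.trans (mul_le_mul_left ?_ _))
    rw [← ENNReal.ofReal_pow hβ0.le]
    refine ENNReal.ofReal_le_ofReal ?_
    have e1 : β ^ (2 ^ j / (k + 1)) ≤ β⁻¹ * Real.exp (-(κ * 2 ^ j)) := by
      conv_lhs => rw [← Real.exp_log hβ0, ← Real.exp_nat_mul]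
      conv_rhs => rw [← Real.exp_log hβ0, ← Real.exp_neg, ← Real.exp_add]
      refine Real.exp_le_exp.2 ?_
      have h1 : (2 : ℝ) ^ j ≤ ((2 ^ j / (k + 1) : ℕ) + 1 : ℝ) * (k + 1) := by
        have : 2 ^ j ≤ (2 ^ j / (k + 1) + 1) * (k + 1) := by
          rw [mul_comm]; exact (Nat.lt_mul_div_succ _ (Nat.succ_pos k)).le
        exact_mod_cast this
      have h2 : κ * 2 ^ j ≤ κ * (((2 ^ j / (k + 1) : ℕ) + 1 : ℝ) * (k + 1)) := by gcongr
      have h3 : κ * (((2 ^ j / (k + 1) : ℕ) + 1 : ℝ) * (k + 1)) =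
          -Real.log β * ((2 ^ j / (k + 1) : ℕ) + 1 : ℝ) := by rw [hκ]; field_simp
      linarith
    have e2 := mul_le_mul_of_nonneg_left (exp_le hκ0 hγ j) (inv_pos.2 hβ0).le
    have e3 : 0 ≤ ((2 : ℝ) ^ (-γ)) ^ j := by positivity
    nlinarith
  · rw [withDensity_apply', withDensity_apply']
    refine hw _ _ _ hq.1 ((h.opn _).measurableSet.inter measurableSet_Ioo) inter_subset_right
      ((h.vol _ _ hq).trans ?_)
    rw [Real.volume_Ioo, ENNReal.ofReal_mul hα.le]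
    exact mul_le_mul_left (ENNReal.ofReal_le_ofReal hk1) _

/-- `A_∞` weights, the endpoint estimate -/
theorem ainf_end {K α β : ℝ} (hK : 1 ≤ K) (hα : 0 < α) (hβ0 : 0 < β) (hβ : β < 1) :
    ∃ C : ℝ, 0 < C ∧ ∀ (f : ℝ → ℂ) (R : ℝ × ℝ) (G : ℝ → ℝ≥0∞) (U : ℕ → Set ℝ) (w : ℝ → ℝ),
      Tree G (ENNReal.ofReal K) f R U → Ainf α β w → ∀ lam, 0 < lam →
      ∫⁻ x in {x | x ∈ Ioo R.1 R.2 ∧ ENNReal.ofReal lam < G x}, ENNReal.ofReal (w x) ≤
        ENNReal.ofReal C * ∫⁻ x in tri R, Phi 1 (‖f x‖ / lam) * Mlog 0 w x := by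
  obtain ⟨D, hD, HD⟩ := ainf_decay hα hβ0 hβ two_pos
  have hρ : (2 : ℝ) ^ (-2 : ℝ) < 1 / 2 := by
    rw [one_div, ← Real.rpow_neg_one]
    exact Real.rpow_lt_rpow_of_exponent_lt one_lt_two (by linarith)
  obtain ⟨C, hC, H⟩ := sumup (D := D * 5) (ρ := 2 ^ (-2 : ℝ)) hK (by positivity) (by positivity) hρ
  refine ⟨C, hC, fun f R G U w h hw lam hl => ?_⟩
  have h0 : ∀ τ, 0 < τ → volume.withDensity (fun x => ENNReal.ofReal (w x)) (Fam f U τ 0) ≤
      ENNReal.ofReal 5 * ∫⁻ x in tri R, Phi 1 (‖f x‖ / τ) * Mlog 0 w x := by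
    intro τ hτ
    rw [withDensity_apply']
    simpa [psi] using h.fam_weight le_rfl le_rfl hτ w 0
  rw [← withDensity_apply']
  refine H f R G U _ _ _ h (withDensity_absolutelyContinuous _ _) (fun τ hτ => (h0 τ hτ).trans
    (mul_le_mul_left (ENNReal.ofReal_le_ofReal (by linarith)) _)) (fun τ hτ j => ?_) lam hl
  refine (HD _ f R G U w h hw τ j).trans ((mul_le_mul_right (h0 τ hτ) _).trans (le_of_eq ?_))
  rw [← mul_assoc, ← ENNReal.ofReal_mul (by positivity)]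
  congr 2; ring

theorem lt_pow_iff {t a p : ℝ} (ht : 0 < t) (ha : 0 < a) (hp : 0 < p) (M : ℝ≥0∞) :
    ENNReal.ofReal (t ^ (1 / p) / a) < M ↔ ENNReal.ofReal t < ENNReal.ofReal (a ^ p) * M ^ p := by
  rw [← ENNReal.rpow_lt_rpow_iff hp, ENNReal.ofReal_rpow_of_nonneg (by positivity) hp.le,
    Real.div_rpow (by positivity) ha.le, ← Real.rpow_mul ht.le, one_div_mul_cancel hp.ne',
    Real.rpow_one, ENNReal.ofReal_div_of_pos (by positivity), mul_comm,
    ← ENNReal.div_lt_iff (Or.inl (by simp; positivity)) (Or.inl ENNReal.ofReal_ne_top)]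

/-- `A_∞` weights, the inequality of Coifman and Fefferman -/
theorem ainf_lp {K α β p : ℝ} (hK : 0 < K) (hα : 0 < α) (hβ0 : 0 < β) (hβ : β < 1) (hp : 0 < p) :
    ∃ C : ℝ, 0 < C ∧ ∀ (f : ℝ → ℂ) (R : ℝ × ℝ) (G : ℝ → ℝ≥0∞) (U : ℕ → Set ℝ) (w : ℝ → ℝ),
      Tree G (ENNReal.ofReal K) f R U → Measurable G → Measurable w → Ainf α β w →
      ∫⁻ x in Ioo R.1 R.2, G x ^ p * ENNReal.ofReal (w x) ≤ ENNReal.ofReal C *
        ∫⁻ x in Ioo R.1 R.2, Mlog 1 (fun y => ‖f y‖) x ^ p * ENNReal.ofReal (w x) := by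
  obtain ⟨D, hD, HD⟩ := ainf_decay (γ := 2 * p + 1) hα hβ0 hβ (by positivity)
  set c := K * (1 + 1 / ((4 : ℝ) - 2)) with hc
  have hc0 : 0 < c := by positivity
  set a : ℕ → ℝ := fun j => D * ((2 : ℝ) ^ (-(2 * p + 1))) ^ j * (c * 4 ^ (j + 1)) ^ p with ha
  have ha0 : ∀ j, 0 ≤ a j := fun j => by positivity
  have hs : Summable a := by
    refine (summable_geometric_two.mul_left (D * (c * 4) ^ p)).congr fun j => ?_
    have e1 : (2 : ℝ) ^ (-(2 * p + 1)) * 4 ^ p = 1 / 2 := by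
      rw [show (4 : ℝ) = 2 ^ (2 : ℝ) by norm_num, ← Real.rpow_mul two_pos.le,
        ← Real.rpow_add two_pos, one_div, ← Real.rpow_neg_one]
      congr 1; ring
    have e2 : (c * 4 ^ (j + 1)) ^ p = (c * 4) ^ p * (4 ^ p) ^ j := by
      rw [pow_succ', ← mul_assoc, Real.mul_rpow (by positivity) (by positivity),
        ← Real.rpow_natCast, ← Real.rpow_mul (by norm_num), mul_comm (j : ℝ),
        Real.rpow_mul (by norm_num), Real.rpow_natCast]
    simp only [ha]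
    rw [e2, ← e1, mul_pow]; ring
  have ht0 : 0 ≤ ∑' j, a j := tsum_nonneg ha0
  refine ⟨c ^ p + ∑' j, a j, by positivity, fun f R G U w h mG mw hw => ?_⟩
  set ν := volume.withDensity (fun x => ENNReal.ofReal (w x)) with hν
  set M := Mlog 1 (fun y => ‖f y‖) with hM
  have mM : Measurable M := Mlog_meas _ _
  have conv : ∀ H : ℝ → ℝ≥0∞, Measurable H → ∫⁻ x in Ioo R.1 R.2, H x * ENNReal.ofReal (w x) =
      ∫⁻ x, H x ∂(ν.restrict (Ioo R.1 R.2)) := by
    intro H mH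
    rw [hν, setLIntegral_withDensity_eq_setLIntegral_mul _ mw.ennreal_ofReal mH measurableSet_Ioo]
    simp only [Pi.mul_apply, mul_comm]
  set μ := ν.restrict (Ioo R.1 R.2) with hμ
  have fam : ∀ t b : ℝ, 0 < t → 0 < b → ν (Fam f U (t ^ (1 / p) / b) 0) ≤
      μ {x | ENNReal.ofReal t < ENNReal.ofReal (b ^ p) * M x ^ p} := by
    intro t b ht hb
    rw [hμ, Measure.restrict_apply' measurableSet_Ioo]
    refine measure_mono fun x hx => ?_
    have := h.fam_sub _ _ hx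
    exact ⟨(lt_pow_iff ht hb hp _).1 this.2, this.1⟩
  have ck : ∀ b : ℝ, ∫⁻ t in Ioi (0 : ℝ), μ {x | ENNReal.ofReal t < ENNReal.ofReal b * M x ^ p} =
      ENNReal.ofReal b * ∫⁻ x, M x ^ p ∂μ := by
    intro b
    rw [← cake μ (H := fun x => ENNReal.ofReal b * M x ^ p) (by fun_prop),
      lintegral_const_mul' _ _ ENNReal.ofReal_ne_top]
  have mk : ∀ b : ℝ, Measurable fun t : ℝ =>
      μ {x | ENNReal.ofReal t < ENNReal.ofReal b * M x ^ p} := fun b =>
    Antitone.measurable fun s t hst => measure_mono fun x hx =>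
      lt_of_le_of_lt (ENNReal.ofReal_le_ofReal hst) hx
  rw [conv _ (by fun_prop), conv _ (by fun_prop), cake μ (by fun_prop)]
  calc _ ≤ ∫⁻ t in Ioi (0 : ℝ), (μ {x | ENNReal.ofReal t < ENNReal.ofReal (c ^ p) * M x ^ p} +
        ∑' j : ℕ, ENNReal.ofReal (D * ((2 : ℝ) ^ (-(2 * p + 1))) ^ j) *
          μ {x | ENNReal.ofReal t < ENNReal.ofReal ((c * 4 ^ (j + 1)) ^ p) * M x ^ p}) := by
        refine setLIntegral_mono' measurableSet_Ioi fun t ht => ?_
        have ht0 : 0 < t := ht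
        have := h.union_le hK ν (withDensity_absolutelyContinuous _ _) (B := 4)
          (lam := t ^ (1 / p)) (by norm_num) (by positivity)
        refine le_trans (le_of_eq ?_) (this.trans (add_le_add (fam t c ht hc0)
          (ENNReal.tsum_le_tsum fun j => (HD _ f R G U w h hw _ j).trans
            (mul_le_mul_right (fam t _ ht (by positivity)) _))))
        rw [hμ, Measure.restrict_apply' measurableSet_Ioo]
        congr 1
        ext x
        have := lt_pow_iff ht0 one_pos hp (G x)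
        simp only [div_one, Real.one_rpow, ENNReal.ofReal_one, one_mul] at this
        simp only [mem_inter_iff, mem_ofPred_eq, this]
        exact and_comm
    _ = _ := by
        rw [lintegral_add_left (mk _), lintegral_tsum fun j => ((mk _).const_mul _).aemeasurable, ck,
          ENNReal.ofReal_add (by positivity) ht0, add_mul, ENNReal.ofReal_tsum_of_nonneg ha0 hs,
          ← ENNReal.tsum_mul_right]
        congr 1
        refine tsum_congr fun j => ?_
        rw [lintegral_const_mul' _ _ ENNReal.ofReal_ne_top, ck, ← mul_assoc,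
          ← ENNReal.ofReal_mul (by positivity)]

/-- `A_1` implies `A_∞` -/
theorem ainf_of_a1 {A : ℝ} (hA : 1 ≤ A) {w : ℝ → ℝ} (mw : Measurable w)
    (hw : ∀ᵐ x, Mlog 0 w x ≤ ENNReal.ofReal (A * w x)) : Ainf (1 / 2) (1 - 1 / (2 * A)) w := by
  intro a b E hab mE hE hv
  have hl := sub_pos.2 hab
  have hβ : 0 < 1 - 1 / (2 * A) := by
    rw [sub_pos, div_lt_one (by positivity)]; linarith
  set X := ∫⁻ x in Ioo a b, ENNReal.ofReal (w x) with hX
  rcases eq_or_ne X ∞ with hX1 | hX1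
  · rw [hX1, ENNReal.mul_top (by simpa using hβ)]; exact le_top
  have h1 : X ≤ ENNReal.ofReal (b - a) * lux 0 w a b := by
    simpa [psi] using holder (g := w) le_rfl le_rfl zero_le_one hab Subset.rfl (by simp)
  have h2 : ENNReal.ofReal ((b - a) / 2) ≤ volume (Ioo a b \ E) := by
    have h3 := measure_inter_add_sdiff (μ := volume) (Ioo a b) mE
    rw [inter_eq_right.2 hE] at h3
    have h4 := h3.ge.trans (add_le_add_left hv _)
    rwa [Real.volume_Ioo, show b - a = (b - a) / 2 + (b - a) / 2 by ring,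
      ENNReal.ofReal_add (by positivity) (by positivity), add_halves,
      show 1 / 2 * (b - a) = (b - a) / 2 by ring,
      ENNReal.add_le_add_iff_left ENNReal.ofReal_ne_top] at h4
  have h3 : ENNReal.ofReal (1 / (2 * A)) * X ≤ ∫⁻ x in Ioo a b \ E, ENNReal.ofReal (w x) := by
    calc _ ≤ ENNReal.ofReal (1 / (2 * A)) * (ENNReal.ofReal (b - a) * lux 0 w a b) := by gcongr
      _ = ENNReal.ofReal (1 / A) * lux 0 w a b * ENNReal.ofReal ((b - a) / 2) := by
          rw [← mul_assoc, mul_right_comm _ (lux 0 w a b), ← ENNReal.ofReal_mul (by positivity),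
            ← ENNReal.ofReal_mul (by positivity)]
          congr 2; field_simp
      _ ≤ ∫⁻ _ in Ioo a b \ E, ENNReal.ofReal (1 / A) * lux 0 w a b := by
          rw [setLIntegral_const]; gcongr
      _ ≤ _ := by
          refine setLIntegral_mono_ae mw.ennreal_ofReal.aemeasurable ?_
          filter_upwards [hw] with x hx hxE
          refine (mul_le_mul_right ((lux_le_Mlog hxE.1).trans hx) _).trans (le_of_eq ?_)
          rw [← ENNReal.ofReal_mul (by positivity)]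
          congr 1; field_simp
  have h4 := lintegral_inter_add_sdiff (μ := volume) (fun x => ENNReal.ofReal (w x)) (Ioo a b) mE
  rw [inter_eq_right.2 hE] at h4
  have h5 := (add_le_add_right h3 _).trans h4.le
  have h6 : X = ENNReal.ofReal (1 - 1 / (2 * A)) * X + ENNReal.ofReal (1 / (2 * A)) * X := by
    rw [← add_mul, ← ENNReal.ofReal_add hβ.le (by positivity)]; simp
  rw [← hX] at h5
  conv_rhs at h5 => rw [h6]
  exact (ENNReal.add_le_add_iff_right (ENNReal.mul_ne_top ENNReal.ofReal_ne_top hX1)).1 h5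

end Vale.Agent.N091W
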